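import Crest.Agent.N337.M.TopA
import Crest.Agent.N337.Geo.Shell
import Crest.Agent.N337.Top.Bas
import Crest.Agent.N337.Top.Defs

-- ▼ part N337/M/Top
section

/-!
# Row 337, the top (helper49): the variance bound from the chain
-/

set_option autoImplicit false
set_option linter.unusedSectionVars false

namespace Crest.Agent.N337.M

open Finset Equiv Filter Crest.Agent.N337.Rep Crest.Agent.N337.Op Crest.Agent.N337.Gas
  Crest.Agent.N337.A

namespace Tp

section gen
variable {Λ : Type} [Fintype Λ] [DecidableEq Λ] {T : ℕ} [NeZero T] {G : Bs T Λ}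
  {W : Lp T Λ → ℝ} {s : Cfg T Λ} {K : ℕ}

lemma yw_nn {y : ℝ} (hy : 0 ≤ y) (g : Lp T Λ) : 0 ≤ yw y g := ub_nn (fun v => by unfold Top.bt; split_ifs; exacts [hy, zero_le_one]) g

lemma pn_mem (hG : G.Ok) (s : Cfg T Λ) (r : Fin T) : 0 ≤ G.pn s r ∧ G.pn s r ≤ 1 :=
  pin_mem (fun r => ⟨(hG.p r).1, (hG.p r).2.trans (by norm_num)⟩) _ r

lemma u_supp {g : Lp T Λ} (h : s.u W g ≠ 0) {v : Fin T × Λ} (hv : v ∈ g.2) :
    v ∉ s.Z ∧ v ∉ pts s.e := not_or.1 fun h' => h (if_pos ⟨v, hv, mem_union.2 h'⟩)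

/-- **the variance of the number of points on short loops.** -/
theorem var_NG {In : Cfg T Λ → Prop} {σ : ℕ} {C K' η c N : ℝ} {S : Finset Λ} (hG : G.Ok)
    (hW : ∀ g, 0 ≤ W g) (hv : G.Val s) (hI : In s) (hL : G.LP W In σ C K' η) (hC : 0 ≤ C)
    (hS : ∀ v, v ∉ s.Z → v.2 ∈ S) (hN : (S.card : ℝ) ≤ N) (c0 : 0 ≤ c)
    (hc : ∀ B : Finset Λ, (∀ x ∈ B, ∀ z ∈ B, G.d x z ≤ σ) → (B.card : ℝ) ≤ c) :
    var (G.gs W s) (NG K) ≤ C * (K * N + c * N + η * N ^ 2) := by
  classical
  obtain ⟨m, μ, h⟩ := hL s hv hI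
  have hq : ∀ s, Cpt (G.q s) := fun s => cpt_qq (pn_mem hG s)
  have hp : Pr (G.gs W s) := pr_nu (hq s) (off_nn hW)
  have S0 : 0 ≤ N := (Nat.cast_nonneg _).trans hN
  have b0 : ∀ A, G.gs W s A ≠ 0 → NG K A ≤ N := fun A hA => (NG_le (nu_supp hA).1
    fun g hg v hv => hS v (u_supp ((nu_supp hA).2 g hg) hv).1).trans hN
  refine (h.var _).trans (mul_le_mul_of_nonneg_left (add_le_add (add_le_add ?_ ?_) ?_) hC)
  · rw [← hp.ex_const (K * _)]
    refine ex_mono_ae hp.nn fun A hA => le_trans (sum_le_sum (g := fun g => K * kw K g)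
      fun g hg => ?_) ?_
    · rw [NG, NG, ← add_sum_erase A _ hg, add_sub_cancel_right, sq]
      exact mul_le_mul_of_nonneg_right (kw_le K g) (kw_nn K g)
    · rw [← mul_sum]; exact mul_le_mul_of_nonneg_left (b0 A hA) (Nat.cast_nonneg _)
  · have h1 : ∑ i, m.c i ≤ 1 := by
      refine le_trans (sum_le_sum fun i _ => ?_) ((h.dom (fun _ => 1) fun _ => zero_le_one).trans_eq
        (hp.ex_const 1))
      by_cases hi : m.c i = 0
      · simp [Bs.fE, hi]
      · have : Pr (G.fl m s i) := pr_nu (hq _) (off_nn (yw_nn (h.ok i hi).2.2.1))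
        rw [Bs.fE, this.ex_const, mul_one]
    refine le_trans (sum_le_sum (g := fun i => m.c i * (c * N)) fun i _ => ?_) ?_
    · by_cases hi : m.c i = 0
      · simp [hi]
      refine mul_le_mul_of_nonneg_left ?_ (h.c0 i)
      obtain ⟨a1, a2, a3, -⟩ := h.ok i hi
      obtain ⟨B, b1, b2, b3⟩ := h.cls i hi fun ho => (h.opn i hi ho).2
      have hp' : Pr (G.fl m s i) := pr_nu (hq _) (off_nn (yw_nn a3))
      have e : var (G.fl m s i) (fun A => NG K (m.x i ∪ A)) = var (G.fl m s i) (NG K) := by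
        have : ∀ A, G.fl m s i A ≠ 0 → NG K (m.x i ∪ A) = NG K (m.x i) + NG K A := fun A hA =>
          sum_union (disjoint_left.2 fun g hg hg' => by
            obtain ⟨v, hv⟩ := qq_nonempty (nu_supp hA).1 hg'
            exact (u_supp (s := m.cf s i) ((nu_supp hA).2 g hg') hv).2
              (mem_pts.2 ⟨g, mem_union_right _ hg, hv⟩))
        rw [var_congr this]
        simp only [var, ex_add, hp'.ex_const, add_sub_add_left_eq_sub]
      rw [e]
      exact (var_blk b1 (pn_mem hG _) (off_nn (yw_nn a3)) c0 (fun i => hc _ (b2 i))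
        fun g hg v hv => ⟨hS v fun h' => (u_supp (s := m.cf s i) hg hv).1 (a2 h'),
          b3 v (u_supp (s := m.cf s i) hg hv).1⟩).trans (mul_le_mul_of_nonneg_left hN c0)
    · rw [← sum_mul]; exact mul_le_of_le_one_left (mul_nonneg c0 S0) h1
  · have e0 : s.add ∅ = s := by simp [Cfg.add]
    have h1 := h.rare ∅ (e0.symm ▸ hv) (e0.symm ▸ hI)
    have e1 : ∀ A, G.gs W s A ≠ 0 → G.ph s ∅ A = 1 := fun A hA => by
      rw [Bs.ph, if_pos (disjoint_empty_right A), sh, union_empty, div_self (nu_supp hA).1]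
    have sp : ∀ A, μ A ≠ 0 → G.gs W s A ≠ 0 := fun A hA h0 =>
      hA (le_antisymm (by simpa [h0] using h.μ1 A) (h.μ0 A))
    rw [ex_congr e1, hp.ex_const, mul_one] at h1
    refine le_trans ?_ (mul_le_mul_of_nonneg_right h1 (sq_nonneg _))
    rw [mul_comm, ← ex_mul, nsq_eq_ex]
    refine ex_mono_ae h.μ0 fun A hA => ?_
    rw [e1 A (sp A hA), mul_one]
    exact pow_le_pow_left₀ (NG_nn K A) (b0 A (sp A hA)) 2

lemma var_sum (hG : G.Ok) (hW : ∀ g, 0 ≤ W g) {F : Finset (Lp T Λ) → ℝ} {lam a : ℝ}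
    (h : lam * var (G.gs W s) F ≤ a) :
    lam * ((∑ A, gw (G.q s) (s.u W) A * F A ^ 2) * (∑ A, gw (G.q s) (s.u W) A * F A ^ 0) -
      (∑ A, gw (G.q s) (s.u W) A * F A ^ 1) ^ 2) ≤
      a * (∑ A, gw (G.q s) (s.u W) A * F A ^ 0) ^ 2 := by
  have hq : Cpt (G.q s) := cpt_qq (pn_mem hG _)
  have hZ : 0 < gZ (G.q s) (s.u W) := Gas.gZ_pos hq (off_nn hW)
  have hp : Pr (G.gs W s) := pr_nu hq (off_nn hW)
  simp only [pow_zero, pow_one, mul_one]
  rw [hp.var_eq, nsq_eq_ex, Bs.gs, ex_nu, ex_nu] at h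
  change lam * (_ * gZ _ _ - _) ≤ _ * gZ _ _ ^ 2
  refine le_trans (le_of_eq ?_) (mul_le_mul_of_nonneg_right h (sq_nonneg _))
  field_simp

lemma val_empty (hG : G.Ok) (h : s.e = ∅) : G.Val s := by
  rw [Bs.Val, h, (cpt_qq fun r => ⟨(hG.p r).1, (hG.p r).2.trans (by norm_num)⟩).empty]
  exact one_ne_zero

lemma tw_eq (y t : ℝ) (K : ℕ) (g : Lp T Λ) : tw y t K g = yw y g * Real.exp (t * kw K g) := by
  simp [tw, kw]

end gen

section word
open Crest.Agent.N337.Top
variable {L n : ℕ} [NeZero L] [NeZero n]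

lemma card_cubeS (z : Tor 3 L) (l : ℕ) : (cubeS n z l).card ≤ n * l ^ 3 := by
  have := card_le_card_of_injOn (s := cubeS n z l)
    (t := (univ : Finset (Fin n)) ×ˢ Fintype.piFinset fun _ : Fin 3 => range l)
    (fun x => (x.2, coz z x)) (fun x hx => by
      simpa [coz, cube] using mem_cubeS.1 (mem_coe.1 hx)) fun x _ y _ h => by
      refine Prod.ext (funext fun a => ?_) (congrArg Prod.fst h)
      exact sub_left_injective (ZMod.val_injective _ (congrFun (congrArg Prod.snd h) a))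
  simpa using this

lemma card_diam {σ : ℕ} (B : Finset (Sl L n)) (h : ∀ x ∈ B, ∀ z ∈ B, dS x z ≤ σ) :
    (B.card : ℝ) ≤ n * (2 * σ + 1) ^ 3 := by
  rcases B.eq_empty_or_nonempty with rfl | ⟨x, hx⟩
  · simp only [card_empty, Nat.cast_zero]; positivity
  have h1 : B ⊆ Geo.bl x.1 σ ×ˢ univ := fun z hz =>
    mem_product.2 ⟨Geo.mem_bl.2 (h x hx z hz), mem_univ _⟩
  have h2 := Geo.card_bl x.1 σ
  refine (Nat.cast_le.2 (card_le_card h1)).trans ?_
  rw [card_product, card_univ, Fintype.card_fin, mul_comm]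
  push_cast at h2 ⊢
  exact mul_le_mul_of_nonneg_left h2 (Nat.cast_nonneg _)

lemma GT_ok {β : ℝ} {w : ℕ} {sy : List (Sl L n × Sl L n × ℝ)} (hβ : 0 ≤ β) (hs : Sym sy) :
    (GT β w sy).Ok := ⟨Sh.pp_mem hβ hs, met_word hs⟩

lemma s0_u {T : ℕ} [NeZero T] (y t : ℝ) (K : ℕ) (z : Tor 3 L) (l : ℕ) (g : Lp T (Sl L n)) :
    (s0 z l).u (tw y t K) g = ub (bx y z l) g * Real.exp (t * kw K g) := by
  have : bx (n := n) (T := T) y z l = kill (bt y) (s0 z l).K := by
    funext v
    have : v ∈ (s0 (n := n) (T := T) z l).K ↔ v.2.1 ∉ cube z l := by simp [Cfg.K, s0, pts]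
    unfold bx kill
    by_cases h : v.2.1 ∈ cube z l
    · rw [if_pos h, if_neg fun h' => this.1 h' h]
    · rw [if_neg h, if_pos (this.2 h)]
  rw [this, ub_kill, Cfg.u, off, off, tw_eq, yw]
  split_ifs <;> simp

end word

end Tp

export Tp (card_cubeS)

open Tp Crest.Agent.N337.Top in
/-- **(Top)** -/
theorem top : TopStmt := by
  intro hC n _
  obtain ⟨β0, hC⟩ := hC n
  refine ⟨max β0 0, fun β hβ K ε hε => ?_⟩
  obtain ⟨x, lam, C, K', η, l, σ, h1, h2, h3, h4, h5, h6, hC⟩ :=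
    hC β ((le_max_left _ _).trans hβ) K ε hε
  have hβ0 : 0 ≤ β := (le_max_right _ _).trans hβ
  have hl : 0 ≤ lam := by nlinarith
  refine ⟨x, lam, l, h1, h2, h3, h4, hC.mono fun L hL sy hs => (hL sy hs).mono ?_⟩
  intro w hw z t t0 t1
  obtain ⟨In, hI, hLP⟩ := hw z t t0 t1
  have hG := GT_ok (w := w) hβ0 hs
  set G := GT β w sy with hGd
  set W : Lp (TT β w sy) (Sl (L + 1) n) → ℝ := tw (Real.exp (-x)) t K with hW
  have W0 : ∀ g, 0 ≤ W g := fun g => mul_nonneg (yw_nn (Real.exp_pos _).le g) (Real.exp_pos _).le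
  have hV := var_NG (K := K) (S := cubeS n z l) hG W0 (val_empty hG rfl) hI hLP h5
    (fun v h => mem_cubeS.2 (by simpa [s0] using h)) (N := n * l ^ 3)
    (by exact_mod_cast card_cubeS z l) (by positivity) card_diam
  have hm : ∀ j : ℕ, EW β w sy (bx (Real.exp (-x)) z l)
      (fun π D => Real.exp (t * Ns K π D) * (Ns K π D : ℝ) ^ j) =
      ∑ A, gw (G.q (s0 z l)) ((s0 z l).u W) A * NG K A ^ j := fun j => by
    rw [EW, EE_gas (F := fun A => Real.exp (t * NG K A) * NG K A ^ j) _ fun ξ D h => by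
      rw [Ns_eq h]]
    refine sum_congr rfl fun A _ => ?_
    simp only [gw, hW, s0_u, prod_mul_distrib, ← Real.exp_sum, ← mul_sum, NG]
    simp only [Bs.q, Bs.pn, s0, pin_empty, hGd, GT]
    ring
  intro m
  simp only [m, hm]
  refine var_sum hG W0 ((mul_le_mul_of_nonneg_left hV hl).trans ?_)
  refine le_trans (le_of_eq ?_) (mul_le_mul_of_nonneg_right h6 (by positivity))
  ring

end Crest.Agent.N337.M
end

-- ▼ part N337/Top/Fin
section

/-!
# Row 337, TOP: `PolarStmt` from Sym, Bridge, Short, Long (helper37)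
-/

set_option autoImplicit false

namespace Crest.Agent.N337.Top

open Finset Filter Crest.Agent.N337.Rep Crest.Agent.N337.Slot

theorem polar_of (hS : SymStmt) (hB : BridgeStmt) (hA : ShortStmt) (hL : LongStmt) :
    C.PolarStmt := by
  intro n hn
  have : NeZero n := ⟨by omega⟩
  obtain ⟨βA, hA⟩ := hA n
  obtain ⟨βL, hL⟩ := hL n
  refine ⟨max (max βA βL) 1, fun β hβ => ?_⟩
  have hβ1 : 1 ≤ β := (le_max_right _ _).trans hβ
  have hβ0 : 0 < β := by linarith
  obtain ⟨C, u0, hL⟩ := hL β ((le_max_right _ _).trans ((le_max_left _ _).trans hβ))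
  refine ⟨C, max u0 1, fun u hu ε hε => ?_⟩
  have hu0 : 0 < u := lt_of_lt_of_le one_pos ((le_max_right _ _).trans hu)
  obtain ⟨K, hL⟩ := hL u ((le_max_left _ _).trans hu) (ε / 2) (by positivity)
  obtain ⟨x, hx, hA⟩ := hA β ((le_max_left _ _).trans ((le_max_left _ _).trans hβ)) K (ε / 2)
    (by positivity)
  refine ⟨x / 2 / β, by positivity, ?_⟩
  have hV : Tendsto (fun L : ℕ => u / ((L + 1 : ℕ) : ℝ) ^ 3) atTop (nhds 0) :=
    tendsto_const_nhds.div_atTop ((tendsto_pow_atTop (by norm_num)).comp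
      (tendsto_natCast_atTop_atTop.comp (tendsto_add_atTop_nat 1)))
  filter_upwards [hL, hA, eventually_ge_atTop 2, hV.eventually (ge_mem_nhds hx)] with L hL hA h2 hx'
  obtain ⟨sy, hs⟩ := hS (L + 1) n
  set V : ℝ := ((L + 1 : ℕ) : ℝ) ^ 3 with hVd
  have hV0 : 0 < V := by positivity
  set c := 1 / u + C * Real.exp (-(β ^ (-(1 / 4 : ℝ)) * u)) + ε / 2 with hc
  have t1 := hB n L h2 β hβ0 sy hs (u / V)
  have t2 := (hB n L h2 β hβ0 sy hs (x / 2)).add_const (ε / 2 * V + c * V)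
  have key := le_of_tendsto_of_tendsto t1 t2 (by
    filter_upwards [hL sy hs, hA sy hs] with w h1 h3
    have h3 := h3 (u / V) (by positivity) hx'
    have h0 : 0 < EW β w sy (bt (Real.exp (-(u / V)))) fun _ _ => 1 :=
      one_pos.trans_le (one_le_EW w hβ0.le hs (bt_nonneg (Real.exp_pos _).le))
    simp only [EW] at h0 h1 h3 ⊢
    rw [EE_sub, ← div_le_iff₀ h0, sub_div] at h1
    linarith)
  rw [div_div, mul_comm V β, ← hVd] at key
  refine le_of_mul_le_mul_right (key.trans (le_of_eq ?_)) hV0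
  rw [hc]; ring

end Crest.Agent.N337.Top
end

-- ▼ part N337/Top/Sym

/-!
# Row 337, TOP: short symmetriser words with probabilities `≤ 1/2` (helper37)
-/

set_option autoImplicit false
set_option linter.unusedSectionVars false

namespace Crest.Agent.N337.Top

open Finset Matrix Crest.Agent.N337.Slot Crest.Agent.N337.Slot.SL

namespace Sy

variable {Λ : Type} [Fintype Λ] [DecidableEq Λ]

theorem wp_append (u w : List (Λ × Λ × ℝ)) : wp (u ++ w) = wp u * wp w := by simp [wp]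

theorem swp_swp {a c j : Λ} (hca : c ≠ a) (hcj : c ≠ j) :
    swp c a * swp j a = swp j a * swp c j := by
  have := swp_conj j a c j
  rw [Equiv.swap_apply_left, Equiv.swap_apply_of_ne_of_ne hcj hca] at this
  exact this.symm

/-- the new letters. -/
theorem exR (a : Λ) (Q : BOp Λ) (U : Finset Λ) (ha : a ∉ U)
    (hQ : ∀ c ∈ U, ∀ d ∈ U, swp c d * Q = Q) (r : ℝ) (hr : 1 ≤ r) :
    ∃ R : List (Λ × Λ × ℝ), (∀ q ∈ R, (0 ≤ q.2.2 ∧ q.2.2 ≤ 1 / 2) ∧ q.1 ∈ U ∧ q.2.1 = a) ∧
      R.length = U.card ∧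
      wp R * Q = (1 / (r + U.card)) • (r • Q + ∑ j ∈ U, swp j a * Q) := by
  induction U using Finset.induction_on generalizing r with
  | empty =>
    refine ⟨[], by simp, by simp, ?_⟩
    simp only [wp, List.map_nil, List.prod_nil, Matrix.one_mul, card_empty, Nat.cast_zero, add_zero,
      sum_empty, smul_smul]
    rw [one_div_mul_cancel (by positivity), one_smul]
  | insert c U hc ih =>
    obtain ⟨R, h1, h2, h3⟩ := ih (fun h => ha (mem_insert_of_mem h))
      (fun x hx y hy => hQ x (mem_insert_of_mem hx) y (mem_insert_of_mem hy)) (r + 1) (by linarith)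
    refine ⟨(c, a, 1 / (r + 1)) :: R, fun q hq => ?_, by simp [h2, card_insert_of_notMem hc], ?_⟩
    · rcases List.mem_cons.1 hq with rfl | hq
      · exact ⟨⟨by positivity, one_div_le_one_div_of_le (by norm_num) (by linarith)⟩,
          mem_insert_self _ _, rfl⟩
      · exact ⟨(h1 q hq).1, mem_insert_of_mem (h1 q hq).2.1, (h1 q hq).2.2⟩
    · have e : wp ((c, a, 1 / (r + 1)) :: R) = step c a (1 / (r + 1)) * wp R := by simp [wp]
      have hca : c ≠ a := fun e => ha (e ▸ mem_insert_self _ _)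
      have hS : swp c a * ∑ j ∈ U, swp j a * Q = ∑ j ∈ U, swp j a * Q := by
        rw [mul_sum]
        refine sum_congr rfl fun j hj => ?_
        rw [← Matrix.mul_assoc, swp_swp hca (fun e => hc (e ▸ hj)), Matrix.mul_assoc,
          hQ c (mem_insert_self _ _) j (mem_insert_of_mem hj)]
      rw [e, Matrix.mul_assoc, h3, Matrix.mul_smul, step, Matrix.add_mul, Matrix.smul_mul,
        Matrix.smul_mul, Matrix.one_mul, Matrix.mul_add, hS, Matrix.mul_smul, sum_insert hc,
        card_insert_of_notMem hc]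
      have : r + 1 ≠ 0 := by positivity
      push_cast
      rw [show r + 1 + U.card = r + (U.card + 1) by ring]
      congr 1
      match_scalars <;> field_simp <;> ring

theorem exists_sym {X : Type} [DecidableEq X] (s : Λ → X) (S : Finset Λ) :
    ∃ w : List (Λ × Λ × ℝ),
      (∀ q ∈ w, (0 ≤ q.2.2 ∧ q.2.2 ≤ 1 / 2) ∧ s q.1 = s q.2.1) ∧
      (∀ z, (w.filter fun q => s q.1 = z).length ≤ (S.filter fun j => s j = z).card ^ 2) ∧
      ∀ c ∈ S, ∀ d ∈ S, s c = s d → swp c d * wp w = wp w := by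
  induction S using Finset.induction_on with
  | empty => exact ⟨[], by simp, by simp, by simp⟩
  | insert a S ha ih =>
    obtain ⟨w, hw, hf, hQ⟩ := ih
    set Sa := S.filter fun j => s j = s a with hSa
    have hmem : ∀ j, j ∈ Sa ↔ j ∈ S ∧ s j = s a := fun j => mem_filter
    set Q := wp w
    have hQa : ∀ c ∈ Sa, ∀ d ∈ Sa, swp c d * Q = Q := fun c hc d hd =>
      hQ c ((hmem c).1 hc).1 d ((hmem d).1 hd).1 (((hmem c).1 hc).2.trans ((hmem d).1 hd).2.symm)
    obtain ⟨R, h1, h2, h3⟩ := exR a Q Sa (fun h => ha ((hmem a).1 h).1) hQa 1 le_rfl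
    rw [one_smul] at h3
    have hL : ∀ c ∈ Sa, swp c a * (Q + ∑ j ∈ Sa, swp j a * Q) = Q + ∑ j ∈ Sa, swp j a * Q := by
      intro c hc
      have hca : c ≠ a := fun e => ha (e ▸ ((hmem c).1 hc).1)
      rw [← add_sum_erase _ _ hc, Matrix.mul_add, Matrix.mul_add, ← Matrix.mul_assoc, swp_mul_self,
        Matrix.one_mul, ← add_assoc, ← add_assoc, add_comm (swp c a * Q) Q, mul_sum]
      congr 1
      refine sum_congr rfl fun j hj => ?_
      rw [← Matrix.mul_assoc, swp_swp hca (ne_of_mem_erase hj).symm, Matrix.mul_assoc,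
        hQa c hc j (mem_of_mem_erase hj)]
    refine ⟨R ++ w, fun q hq => ?_, fun z => ?_, fun c hc d hd hcd => ?_⟩
    · rcases List.mem_append.1 hq with hq | hq
      · exact ⟨(h1 q hq).1, by rw [(h1 q hq).2.2]; exact ((hmem _).1 (h1 q hq).2.1).2⟩
      · exact hw q hq
    · rw [List.filter_append, List.length_append, filter_insert]
      split_ifs with hz
      · subst hz
        have := hf (s a)
        have h4 := List.length_filter_le (fun q : Λ × Λ × ℝ => decide (s q.1 = s a)) R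
        rw [card_insert_of_notMem (fun h => ha (mem_filter.1 h).1), ← hSa]
        rw [← hSa] at this
        nlinarith
      · rw [List.filter_eq_nil_iff.2 fun q hq => by
          simpa [((hmem _).1 (h1 q hq).2.1).2] using hz]
        simpa using hf z
    · rw [wp_append, h3, Matrix.mul_smul]
      congr 1
      rcases mem_insert.1 hc with rfl | hc1 <;> rcases mem_insert.1 hd with rfl | hd1
      · simp [swp_self]
      · rw [swp_comm]; exact hL d ((hmem d).2 ⟨hd1, hcd.symm⟩)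
      · exact hL c ((hmem c).2 ⟨hc1, hcd⟩)
      · have hfix : Equiv.swap c d a = a :=
          Equiv.swap_apply_of_ne_of_ne (fun e => ha (e ▸ hc1)) (fun e => ha (e ▸ hd1))
        have hin : ∀ j ∈ Sa, Equiv.swap c d j ∈ Sa := by
          intro j hj
          rw [hmem] at hj ⊢
          rw [Equiv.swap_apply_def]
          split_ifs with h1 h2
          · exact ⟨hd1, by rw [← hcd, ← h1, hj.2]⟩
          · exact ⟨hc1, by rw [hcd, ← h2, hj.2]⟩
          · exact hj
        rw [Matrix.mul_add, hQ c hc1 d hd1 hcd, mul_sum]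
        congr 1
        refine sum_bij' (fun j _ => Equiv.swap c d j) (fun j _ => Equiv.swap c d j)
          hin hin (by simp) (by simp) fun j _ => ?_
        rw [← Matrix.mul_assoc, swp_conj, hfix, Matrix.mul_assoc, hQ c hc1 d hd1 hcd]

end Sy

theorem sym : SymStmt := by
  intro L n _ _
  obtain ⟨w, hw, hf, hQ⟩ := Sy.exists_sym (Prod.fst : Sl L n → Tor 3 L) univ
  refine ⟨w, fun q hq => (hw q hq).1, fun q hq => (hw q hq).2, fun z => (hf z).trans ?_, ?_⟩
  · refine Nat.pow_le_pow_left ?_ 2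
    refine (card_le_card_of_injOn (fun j => j.2) (t := univ) (fun _ _ => mem_univ _)
      fun i hi j hj e => ?_).trans (by simp)
    simp only [coe_filter, mem_univ, true_and, Set.mem_ofPred_eq] at hi hj
    exact Prod.ext (hi.trans hj.symm) e
  · have h1 : (UU (Tor 3 L) n)ᵀ * wp w = (UU (Tor 3 L) n)ᵀ := mul_wp _ w fun q hq => by
      rw [← swp_transpose, ← Matrix.transpose_mul, swp_UU (hw q hq).2]
    rw [C.Mo.PP, ← h1]
    exact (UU_proj _ fun u v h => hQ u (mem_univ _) v (mem_univ _) h).symm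

end Crest.Agent.N337.Top
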