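import Crest.Agent.N337.Top.BAlg
import Crest.Agent.N337.Top.BDefs
import Crest.Agent.N337.Top.BArc
import Crest.Agent.N337.Top.Bas

-- ▼ part N337/Top/BMax
section

/-!
# Row 337, TOP (B), part 3: from exposures of chains to an `L²` bound on a time slice
-/

set_option autoImplicit false
set_option linter.unusedSectionVars false

namespace Crest.Agent.N337.ZM

open Finset Matrix Crest.MathPhysics.SpinModel Geo Free

section abs
variable {V : Type} [Fintype V] [DecidableEq V] {P : Matrix V V ℝ}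

lemma Rch.seq {W : V → Prop} {w v : V} (h : Rch P W w v) (hw : W w) :
    ∃ (N : ℕ) (e : ℕ → V), e 0 = w ∧ e N = v ∧ (∀ i ≤ N, W (e i)) ∧
      ∀ i < N, 0 < P (e i) (e (i + 1)) := by
  induction h with
  | refl => exact ⟨0, fun _ => w, rfl, rfl, fun _ _ => hw, fun _ h => absurd h (by omega)⟩
  | @tail a c _ hc ih =>
    obtain ⟨N, e, h0, h1, h2, h3⟩ := ih
    refine ⟨N + 1, fun i => if i ≤ N then e i else c, by simp [h0], by simp, fun i _ => ?_,
      fun i hi => ?_⟩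
    · dsimp only; split_ifs with h; exacts [h2 i h, hc.2]
    · dsimp only
      rw [if_pos (by omega)]
      split_ifs with h
      · exact h3 i h
      · rw [show i = N by omega, h1]; exact hc.1

/-- the two sided principle at one point. -/
lemma Tr.point (hP : Tr P) (hr : ∀ i, ∑ j, P i j ≤ 1) (hc : ∀ j, ∑ i, P i j ≤ 1) {F : V → ℝ}
    (F0 : ∀ v, 0 ≤ F v) (hsup : ∀ v, (P *ᵥ F) v ≤ F v) (Ok Nr : V → Prop) (B : Finset V)
    (hsub : ∀ v, Ok v → Nr v → F v ≤ (P *ᵥ F) v) (hB : ∀ v, Ok v → Nr v → v ∈ B)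
    (hout : ∀ a c, 0 < P a c → Ok a → Nr c → Ok c) {w : V} (hw : Ok w) {c D : ℝ} (c0 : 0 ≤ c)
    (D0 : 0 ≤ D) (exp : ∀ (N : ℕ) (e : ℕ → V), e 0 = w → (∀ i < N, 0 < P (e i) (e (i + 1))) →
      ¬ Nr (e N) → ∃ i ≤ N, |F (e i) - c| ≤ D) :
    (F w - c) ^ 2 ≤ 2 * D ^ 2 + 2 * c ^ 2 * (Gr P w w * ∑ v ∈ B, (1 - ∑ j, P v j)) := by
  have key : ∀ W : V → Prop, W w → (∀ v, W v → D < |F v - c|) → ∀ v, Rch P W w v →
      Ok v ∧ Nr v := fun W hW h => by
    have h1 : ∀ v, Rch P W w v → Nr v := fun v hv => by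
      by_contra hn
      obtain ⟨N, e, h0, h1, h2, h3⟩ := hv.seq hW
      obtain ⟨i, hi, h4⟩ := exp N e h0 h3 (h1 ▸ hn)
      exact absurd (h _ (h2 i hi)) (not_lt.2 h4)
    intro v hv
    refine ⟨?_, h1 v hv⟩
    induction hv with
    | refl => exact hw
    | tail ha hc ih => exact hout _ _ hc.1 ih (h1 _ (ha.tail hc))
  set t := Gr P w w * ∑ v ∈ B, (1 - ∑ j, P v j) with ht
  have t0 : 0 ≤ t := mul_nonneg (hP.nonneg w w) (sum_nonneg fun v _ => sub_nonneg.2 (hr v))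
  have up : F w ≤ c + D := by
    by_contra! hn
    refine absurd (hP.upper hr (add_nonneg c0 D0) fun v hv => ?_) (not_le.2 hn)
    have := key _ hn (fun v hv => lt_abs.2 (Or.inl (by linarith))) v hv
    exact hsub v this.1 this.2
  have lo : c - D - F w ≤ c * min 1 t := by
    have m0 : 0 ≤ c * min 1 t := mul_nonneg c0 (le_min zero_le_one t0)
    by_cases hn : F w < c - D
    swap
    · linarith [not_lt.1 hn]
    have h1 := hP.lower hr hc (by linarith [F0 w] : 0 ≤ c - D) hsup B fun v hv => by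
      have := key _ hn (fun v hv => lt_abs.2 (Or.inr (by linarith))) v hv
      exact hB v this.1 this.2
    rw [mul_assoc, ← ht] at h1
    rw [mul_min_of_nonneg _ _ c0]
    exact le_min (by linarith [F0 w]) (by nlinarith)
  have m1 : min 1 t ^ 2 ≤ t := by
    have := min_le_left 1 t
    have := min_le_right 1 t
    have := le_min zero_le_one t0
    nlinarith
  have m0 : 0 ≤ c * min 1 t := mul_nonneg c0 (le_min zero_le_one t0)
  calc (F w - c) ^ 2 ≤ (D + c * min 1 t) ^ 2 := sq_le_sq' (by linarith) (by linarith)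
    _ ≤ 2 * D ^ 2 + 2 * c ^ 2 * min 1 t ^ 2 := by nlinarith [sq_nonneg (D - c * min 1 t)]
    _ ≤ _ := by gcongr

end abs

variable {L n T : ℕ} [NeZero L] [NeZero T]

lemma card_near (x : Tor 3 L) (r : ℕ) :
    ((univ.filter fun z : Tor 3 L × Fin n => tdist x z.1 ≤ r).card : ℝ) ≤
      n * (2 * (r : ℝ) + 1) ^ 3 := by
  have : (univ.filter fun z : Tor 3 L × Fin n => tdist x z.1 ≤ r) = bl x r ×ˢ univ := by
    ext z; simp [mem_bl]
  have h := card_bl x r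
  rw [this, card_product, card_univ, Fintype.card_fin]
  push_cast at h ⊢
  rw [mul_comm]
  exact mul_le_mul_of_nonneg_left h (Nat.cast_nonneg _)

/-- the `L²` bound on the slice `0`. -/
theorem side {P : Matrix (Fin T × (Tor 3 L × Fin n)) (Fin T × (Tor 3 L × Fin n)) ℝ} (hP : Tr P)
    (hr : ∀ i, ∑ j, P i j ≤ 1) (hc : ∀ j, ∑ i, P i j ≤ 1)
    (O : Finset (Fin T × (Tor 3 L × Fin n))) {F : Fin T × (Tor 3 L × Fin n) → ℝ} {Γ c θ δ : ℝ}
    (F0 : ∀ v, 0 ≤ F v ∧ F v ≤ Γ) (c0 : 0 ≤ c ∧ c ≤ Γ) (θ0 : 0 ≤ θ) (δ0 : 0 ≤ δ)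
    (st : Fin T × (Tor 3 L × Fin n)) (s0 : Fin T) (hsup : ∀ v, (P *ᵥ F) v ≤ F v)
    (hsub : ∀ v ∉ O, v ≠ st → F v ≤ (P *ᵥ F) v)
    (hout : ∀ a c, 0 < P a c → a ∉ O → c ∉ O ∨ c = st)
    (hloss : ∀ v ∉ O, v ≠ st → 1 - ∑ j, P v j ≤ if v.1 = s0 then θ else 0)
    {loc : Tor 3 L → ℝ} (l0 : ∀ x, 0 ≤ loc x) (R : ℕ)
    (exp : ∀ (N : ℕ) (e : ℕ → Fin T × (Tor 3 L × Fin n)), e 0 ∉ O →
      (∀ i < N, 0 < P (e i) (e (i + 1))) → R < tdist (e 0).2.1 (e N).2.1 →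
      ∃ i ≤ N, ∃ x, tdist (e 0).2.1 x ≤ 3 * R ∧ (F (e i) - c) ^ 2 ≤ loc x + δ)
    (S : Finset (Tor 3 L × Fin n)) {k : ℕ} (hk : (S.filter fun x => ((0 : Fin T), x) ∈ O).card ≤ k) :
    ∑ x ∈ S, (F (0, x) - c) ^ 2 ≤ (k + n * (2 * (R : ℝ) + 1) ^ 3) * Γ ^ 2 +
      2 * n * (6 * (R : ℝ) + 1) ^ 3 * ∑ x, loc x + 2 * (n * (L : ℝ) ^ 3) * δ +
      2 * Γ ^ 2 * (θ * (n * (2 * (R : ℝ) + 1) ^ 3)) * ∑ x ∈ S, Gr P (0, x) (0, x) := by
  classical
  have Γ0 : 0 ≤ Γ := c0.1.trans c0.2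
  have pt : ∀ x, (F (0, x) - c) ^ 2 ≤
      ((if ((0 : Fin T), x) ∈ O then Γ ^ 2 else 0) + if tdist st.2.1 x.1 ≤ R then Γ ^ 2 else 0) +
      (2 * ∑ y, (if tdist x.1 y ≤ 3 * R then loc y else 0) + 2 * δ +
        2 * Γ ^ 2 * (θ * (n * (2 * (R : ℝ) + 1) ^ 3)) * Gr P (0, x) (0, x)) := by
    intro x
    have s0' : 0 ≤ ∑ y, (if tdist x.1 y ≤ 3 * R then loc y else 0) :=
      sum_nonneg fun y _ => by split_ifs; exacts [l0 y, le_rfl]
    have g0 := hP.nonneg (0, x) (0, x)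
    have cr : (F (0, x) - c) ^ 2 ≤ Γ ^ 2 :=
      sq_le_sq' (by linarith [(F0 (0, x)).1, c0.2]) (by linarith [(F0 (0, x)).2, c0.1])
    have r0 : 0 ≤ 2 * ∑ y, (if tdist x.1 y ≤ 3 * R then loc y else 0) + 2 * δ +
        2 * Γ ^ 2 * (θ * (n * (2 * (R : ℝ) + 1) ^ 3)) * Gr P (0, x) (0, x) := by positivity
    by_cases h1 : ((0 : Fin T), x) ∈ O
    · rw [if_pos h1]
      refine cr.trans (le_add_of_le_of_nonneg (le_add_of_nonneg_right ?_) r0)
      split_ifs; exacts [sq_nonneg _, le_rfl]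
    by_cases h2 : tdist st.2.1 x.1 ≤ R
    · rw [if_neg h1, if_pos h2, zero_add]
      exact cr.trans (le_add_of_nonneg_right r0)
    have ne : ∀ v : Fin T × (Tor 3 L × Fin n), tdist x.1 v.2.1 ≤ R → v ≠ st := fun v hv e =>
      h2 (by rw [← e, tdist_comm]; exact hv)
    have := hP.point hr hc (fun v => (F0 v).1) hsup (· ∉ O) (fun v => tdist x.1 v.2.1 ≤ R)
      (univ.filter fun v => v ∉ O ∧ tdist x.1 v.2.1 ≤ R) (fun v h h' => hsub v h (ne v h'))
      (fun v h h' => mem_filter.2 ⟨mem_univ _, h, h'⟩)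
      (fun a c h h' h'' => (hout a c h h').resolve_right (ne c h'')) (w := (0, x)) h1 c0.1
      (Real.sqrt_nonneg (∑ y, (if tdist x.1 y ≤ 3 * R then loc y else 0) + δ))
      fun N e e0 e1 e2 => by
        obtain ⟨i, hi, y, hy, h⟩ := exp N e (e0 ▸ h1) e1 (by rw [e0]; exact not_le.1 e2)
        refine ⟨i, hi, Real.abs_le_sqrt (h.trans (add_le_add_left ?_ _))⟩
        rw [e0] at hy
        refine le_trans (le_of_eq (if_pos hy).symm) (single_le_sum
          (f := fun y => if tdist x.1 y ≤ 3 * R then loc y else 0) (fun y _ => ?_) (mem_univ y))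
        split_ifs; exacts [l0 y, le_rfl]
    rw [Real.sq_sqrt (add_nonneg s0' δ0)] at this
    rw [if_neg h1, if_neg h2, zero_add, zero_add]
    have h3 : ∑ v ∈ univ.filter (fun v => v ∉ O ∧ tdist x.1 v.2.1 ≤ R), (1 - ∑ j, P v j) ≤
        θ * (n * (2 * (R : ℝ) + 1) ^ 3) := by
      refine (sum_le_sum (g := fun v => if v.1 = s0 then θ else 0) fun v hv =>
        hloss v (mem_filter.1 hv).2.1 (ne v (mem_filter.1 hv).2.2)).trans ?_
      rw [← sum_filter, sum_const, nsmul_eq_mul, mul_comm]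
      refine mul_le_mul_of_nonneg_left (le_trans ?_ (card_near x.1 R)) θ0
      exact Nat.cast_le.2 (card_le_card_of_injOn (fun v => v.2)
        (fun v hv => by simpa using (mem_filter.1 (mem_filter.1 hv).1).2.2)
        fun v hv v' hv' e => Prod.ext ((mem_filter.1 hv).2.trans (mem_filter.1 hv').2.symm) e)
    have h4 := mul_le_mul (pow_le_pow_left₀ c0.1 c0.2 2) (mul_le_mul_of_nonneg_left h3 g0)
      (mul_nonneg g0 (sum_nonneg fun v _ => sub_nonneg.2 (hr v))) (sq_nonneg _)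
    linarith
  refine (sum_le_sum fun x _ => pt x).trans ?_
  simp only [sum_add_distrib, ← mul_sum, ← sum_filter, sum_const, nsmul_eq_mul]
  have a1 : ((S.filter fun x => ((0 : Fin T), x) ∈ O).card : ℝ) ≤ k := Nat.cast_le.2 hk
  have a2 : ((S.filter fun x => tdist st.2.1 x.1 ≤ R).card : ℝ) ≤ n * (2 * (R : ℝ) + 1) ^ 3 :=
    le_trans (Nat.cast_le.2 (card_le_card (filter_subset_filter _ (subset_univ _))))
      (card_near _ R)
  have a3 : (S.card : ℝ) ≤ n * (L : ℝ) ^ 3 := by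
    have := card_le_univ S
    rw [Fintype.card_prod, card_Tor, Fintype.card_fin, mul_comm] at this
    exact_mod_cast this
  have a4 : ∑ x ∈ S, ∑ y ∈ univ.filter (fun y => tdist x.1 y ≤ 3 * R), loc y ≤
      n * (6 * (R : ℝ) + 1) ^ 3 * ∑ x, loc x := by
    simp only [sum_filter]
    rw [sum_comm, mul_sum]
    refine sum_le_sum fun y _ => ?_
    rw [← sum_filter, sum_const, nsmul_eq_mul]
    refine mul_le_mul_of_nonneg_right ?_ (l0 y)
    have := card_near (n := n) y (3 * R)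
    push_cast at this
    refine le_trans (Nat.cast_le.2 (card_le_card fun x hx => ?_)) (this.trans_eq (by ring))
    exact mem_filter.2 ⟨mem_univ _, by rw [tdist_comm]; exact (mem_filter.1 hx).2⟩
  have b1 := mul_le_mul_of_nonneg_right a1 (sq_nonneg Γ)
  have b2 := mul_le_mul_of_nonneg_right a2 (sq_nonneg Γ)
  have b3 := mul_le_mul_of_nonneg_right a3 δ0
  linarith

end Crest.Agent.N337.ZM
end

-- ▼ part N337/Top/BCut
section

/-!
# Row 337, TOP (B), part 4: the pinned word, energy, rank one step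
-/

set_option autoImplicit false
set_option linter.unusedSectionVars false

namespace Crest.Agent.N337.ZM

open Finset Equiv Matrix Crest.Agent.N337.Rep Crest.Agent.N337.LY0 Crest.Agent.N337.Arc

variable {Λ : Type} [Fintype Λ] [DecidableEq Λ] {T : ℕ} [NeZero T] (ex ey : Fin T → Λ)
  {p : Fin T → ℝ}

lemma Kb_mv (p : Fin T → ℝ) (f : Fin T × Λ → ℝ) (s : Fin T) (y : Λ) :
    (Kb ex ey p *ᵥ f) (s + 1, y) = (1 - p s) * f (s, y) + p s * f (s, swap (ex s) (ey s) y) := by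
  have e : ∀ x, y = swap (ex s) (ey s) x ↔ swap (ex s) (ey s) y = x := fun x => by
    rw [eq_comm, swap_apply_eq_iff, eq_comm]
  rw [mulVec, dotProduct, Fintype.sum_prod_type, sum_eq_single s]
  · simp [Kb_apply, add_mul, sum_add_distrib, e]
  · intro r _ hr
    simp [Kb_apply, hr.symm]
  · simp

lemma Kb_vm (p : Fin T → ℝ) (f : Fin T × Λ → ℝ) (s : Fin T) (x : Λ) :
    ((Kb ex ey p)ᵀ *ᵥ f) (s, x) =
      (1 - p s) * f (s + 1, x) + p s * f (s + 1, swap (ex s) (ey s) x) := by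
  rw [mulVec, dotProduct, Fintype.sum_prod_type, sum_eq_single (s + 1)]
  · simp [Kb_apply, add_mul, sum_add_distrib]
  · intro r _ hr
    simp [Kb_apply, hr]
  · simp

lemma Kb_row (p : Fin T → ℝ) (a : Fin T × Λ) : ∑ c, Kb ex ey p a c = 1 := by
  have := Kb_mv ex ey p (fun _ => 1) (a.1 - 1) a.2
  simpa [mulVec, dotProduct] using this

lemma Kb_col (p : Fin T → ℝ) (c : Fin T × Λ) : ∑ a, Kb ex ey p a c = 1 := by
  have := Kb_vm ex ey p (fun _ => 1) c.1 c.2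
  simpa [mulVec, dotProduct] using this

lemma Kb_pos {a c : Fin T × Λ} (h : 0 < Kb ex ey p a c) : a.1 = c.1 + 1 ∧
    ((p c.1 ≠ 1 ∧ a.2 = c.2) ∨ (p c.1 ≠ 0 ∧ a.2 = swap (ex c.1) (ey c.1) c.2)) := by
  obtain ⟨r, y⟩ := a
  obtain ⟨s, x⟩ := c
  rw [Kb_apply] at h
  by_cases hr : r = s + 1
  swap
  · simp [hr] at h
  refine ⟨hr, ?_⟩
  by_contra! hn
  rw [if_pos hr] at h
  have h1 : (1 - p s) * (if y = x then 1 else 0) = 0 := by
    split_ifs with e
    · rw [of_not_not (mt hn.1 (not_not.2 e)), sub_self, zero_mul]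
    · exact mul_zero _
  have h2 : p s * (if y = swap (ex s) (ey s) x then 1 else 0) = 0 := by
    split_ifs with e
    · rw [of_not_not (mt hn.2 (not_not.2 e)), zero_mul]
    · exact mul_zero _
  linarith

lemma step_sq {q : ℝ} (hq : 0 ≤ q ∧ q ≤ 1) (a c : Λ) (f : Λ → ℝ) :
    ∑ y, ((1 - q) * f y + q * f (swap a c y)) ^ 2 + q * (1 - q) * (f a - f c) ^ 2 ≤
      ∑ y, f y ^ 2 := by
  have h1 := Equiv.sum_comp (swap a c) fun y => f y ^ 2
  have h2 := single_le_sum (f := fun y => (f y - f (swap a c y)) ^ 2) (fun y _ => sq_nonneg _)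
    (mem_univ a)
  simp only [swap_apply_left] at h2
  have h3 : ∑ y, ((1 - q) * f y + q * f (swap a c y)) ^ 2 = (1 - q) * ∑ y, f y ^ 2 +
      q * ∑ y, f (swap a c y) ^ 2 - q * (1 - q) * ∑ y, (f y - f (swap a c y)) ^ 2 := by
    simp only [mul_sum, ← sum_add_distrib, ← sum_sub_distrib]
    exact sum_congr rfl fun y _ => by ring
  have := mul_le_mul_of_nonneg_left h2 (mul_nonneg hq.1 (sub_nonneg.2 hq.2))
  rw [h3, h1]; linarith

lemma en_mv (hp : ∀ s, 0 ≤ p s ∧ p s ≤ 1) (f : Fin T × Λ → ℝ) :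
    ∑ v, (Kb ex ey p *ᵥ f) v ^ 2 + ∑ s, p s * (1 - p s) * |f (s, ex s) - f (s, ey s)| ^ 2 ≤
      ∑ v, f v ^ 2 := by
  simp only [Fintype.sum_prod_type, sq_abs]
  rw [← Equiv.sum_comp (Equiv.addRight (1 : Fin T)), ← sum_add_distrib]
  refine sum_le_sum fun s _ => ?_
  simp only [Equiv.coe_addRight, Kb_mv]
  exact step_sq (hp s) _ _ fun y => f (s, y)

lemma en_vm (hp : ∀ s, 0 ≤ p s ∧ p s ≤ 1) (f : Fin T × Λ → ℝ) :
    ∑ v, ((Kb ex ey p)ᵀ *ᵥ f) v ^ 2 +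
      ∑ s, p s * (1 - p s) * |f (s + 1, ex s) - f (s + 1, ey s)| ^ 2 ≤ ∑ v, f v ^ 2 := by
  simp only [Fintype.sum_prod_type, sq_abs]
  rw [← Equiv.sum_comp (Equiv.addRight (1 : Fin T)) fun s => ∑ y, f (s, y) ^ 2, ← sum_add_distrib]
  refine sum_le_sum fun s _ => ?_
  simp only [Equiv.coe_addRight, Kb_vm]
  exact step_sq (hp s) _ _ fun y => f (s + 1, y)

lemma sq_src {V : Type} [Fintype V] [DecidableEq V] (u : V) (m : ℝ) (k : V → ℝ) {g : V → ℝ}
    (h : ∀ v, g v = (if v = u then m else 0) + k v) :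
    ∑ v, g v ^ 2 ≤ ∑ v, k v ^ 2 + 2 * m * g u := by
  have : ∀ v, g v ^ 2 ≤ k v ^ 2 + if v = u then 2 * m * g u else 0 := fun v => by
    have := h v
    split_ifs at this ⊢ with e
    · subst e; rw [this]; nlinarith [sq_nonneg m]
    · rw [this]; simp
  simpa [sum_add_distrib] using sum_le_sum fun v (_ : v ∈ univ) => this v

lemma tr_Kb (hp : ∀ s, 0 ≤ p s ∧ p s ≤ 1) {b : Fin T × Λ → ℝ} (hb : ∀ v, 0 ≤ b v ∧ b v ≤ 1)
    {Y : ℝ} (hY : 0 ≤ Y ∧ Y < 1) (hk : ∀ x, b (0, x) ≤ Y) : Tr (Kb ex ey p * diagonal b) := by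
  refine ⟨fun i j => by rw [mul_diagonal]; exact mul_nonneg (Kb_nonneg ex ey hp i j) (hb j).1,
    fun h h0 hh v => le_antisymm (G1.sub_nonpos' (ex := ex) (ey := ey) hp hb hY ⟨0, hk⟩
      (fun s y => ?_) v) (h0 v)⟩
  have := hh (s + 1, y)
  rwa [← mulVec_mulVec, Kb_mv, mulVec_diagonal, mulVec_diagonal] at this

lemma row_Kb (hp : ∀ s, 0 ≤ p s ∧ p s ≤ 1) {b : Fin T × Λ → ℝ} (hb : ∀ v, 0 ≤ b v ∧ b v ≤ 1)
    (a : Fin T × Λ) : ∑ c, (Kb ex ey p * diagonal b) a c ≤ 1 := by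
  rw [← Kb_row ex ey p a]
  exact sum_le_sum fun c _ => by
    rw [mul_diagonal]; exact mul_le_of_le_one_right (Kb_nonneg ex ey hp a c) (hb c).2

lemma col_Kb (hp : ∀ s, 0 ≤ p s ∧ p s ≤ 1) {b : Fin T × Λ → ℝ} (hb : ∀ v, 0 ≤ b v ∧ b v ≤ 1)
    (c : Fin T × Λ) : ∑ a, (Kb ex ey p * diagonal b) a c ≤ 1 := by
  rw [← Kb_col ex ey p c]
  exact sum_le_sum fun a _ => by
    rw [mul_diagonal]; exact mul_le_of_le_one_right (Kb_nonneg ex ey hp a c) (hb c).2

/-- on `O` the pinned word is deterministic. -/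
lemma pin_fwd {O : Finset (Fin T × Λ)} {ξ : Fin T → Bool} {a c : Fin T × Λ}
    (h : 0 < Kb ex ey (pin p (tch ex ey O) ξ) a c) (hc : c ∈ O ∨ c.1 ∈ tch ex ey O) :
    a = Sg ex ey ξ c := by
  obtain ⟨h1, h2⟩ := Kb_pos ex ey h
  obtain ⟨s, x⟩ := c
  refine Prod.ext h1 ?_
  rw [Sg_apply]
  by_cases hs : s ∈ tch ex ey O
  · simp only [pin, if_pos hs] at h2
    cases e : ξ s <;> simpa [e, sg] using h2
  · have hx : swap (ex s) (ey s) x = x := swap_apply_of_ne_of_ne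
      (fun e => hs ((mem_tch ex ey).2 (Or.inl (e ▸ hc.resolve_right hs))))
      fun e => hs ((mem_tch ex ey).2 (Or.inr (e ▸ hc.resolve_right hs)))
    have : a.2 = x := h2.elim (·.2) fun h => h.2.trans hx
    cases e : ξ s <;> simp [sg, hx, this]

lemma pin_bwd {O : Finset (Fin T × Λ)} {ξ : Fin T → Bool} {c c' : Fin T × Λ}
    (h : 0 < Kb ex ey (pin p (tch ex ey O) ξ) (Sg ex ey ξ c') c) (hc : c' ∈ O) : c = c' := by
  obtain ⟨h1, h2⟩ := Kb_pos ex ey h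
  obtain ⟨s, x⟩ := c
  obtain ⟨s', x'⟩ := c'
  obtain rfl : s' = s := add_right_cancel (b := 1) h1
  by_cases hs : s' ∈ tch ex ey O
  · exact ((Sg ex ey ξ).injective (pin_fwd ex ey h (Or.inr hs))).symm
  · have hx : swap (ex s') (ey s') x' = x' := swap_apply_of_ne_of_ne
      (fun e => hs ((mem_tch ex ey).2 (Or.inl (e ▸ hc))))
      fun e => hs ((mem_tch ex ey).2 (Or.inr (e ▸ hc)))
    have h3 : (Sg ex ey ξ (s', x')).2 = x' := by
      rw [Sg_apply]; cases e : ξ s' <;> simp [sg, hx]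
    rw [h3] at h2
    rcases h2 with h2 | h2
    · rw [show x' = x from h2.2]
    · rw [show x' = x from (Equiv.swap (ex s') (ey s')).injective (hx.trans h2.2)]

/-- red loops `R`, an arc `α` of at most `k` windings from `(0, r)` to `(0, x)`. -/
structure Cut (p : Fin T → ℝ) (R α : Finset (Fin T × Λ)) (r x : Λ) (k : ℕ) : Prop where
  hp : ∀ s, 0 ≤ p s ∧ p s ≤ 1
  red : ∀ a c, 0 < Kb ex ey p a c → (a ∈ R ↔ c ∈ R)
  fwd : ∀ a c, 0 < Kb ex ey p a c → c ∈ α → (a ∈ α ∨ a = (0, x)) ∧ a ≠ (0, r)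
  bwd : ∀ a c, 0 < Kb ex ey p a c → a ∈ α → c ∈ α ∨ a = (0, r)
  hu : (0, r) ∈ α
  hR : (0, r) ∉ R
  few : (univ.filter fun z => ((0 : Fin T), z) ∈ α).card ≤ k

lemma cut_arc (hp : ∀ s, 0 ≤ p s ∧ p s ≤ 1) {ω : Fin T × Λ → Option Bool} {ξ : Fin T → Bool}
    (hi : ∀ v, ω (Sg ex ey ξ v) = ω v) {r : Λ} (hr : ω (0, r) = none) {k : ℕ} (hk : 0 < k)
    (hl : Lg ex ey r k ξ) : Cut ex ey (pin p (tch ex ey (obs ex ey ω r k ξ)) ξ) (rd ω)
      (al ex ey r k ξ) r (tip ex ey r k ξ) k where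
  hp := pin_mem hp _ _
  red a c h := by
    refine ⟨fun ha => ?_, fun hc => ?_⟩
    · obtain ⟨c', rfl⟩ := (Sg ex ey ξ).surjective a
      rw [mem_rd, hi, ← mem_rd] at ha
      rwa [pin_bwd ex ey h (mem_union_left _ ha)]
    · rwa [pin_fwd ex ey h (Or.inl (mem_union_left _ hc)), mem_rd, hi, ← mem_rd]
  fwd a c h hc := by
    rw [pin_fwd ex ey h (Or.inl (mem_union_right _ hc))]
    obtain ⟨i, hi, rfl⟩ := (mem_al ex ey).1 hc
    rw [← arc_succ]
    refine ⟨?_, hl _ i.succ_pos hi⟩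
    rcases (Nat.succ_le_of_lt hi).eq_or_lt with e | e
    · exact Or.inr (by rw [← arc_tip, ← e])
    · exact Or.inl ((mem_al ex ey).2 ⟨_, e, rfl⟩)
  bwd a c h ha := by
    obtain ⟨i, hi, rfl⟩ := (mem_al ex ey).1 ha
    cases i with
    | zero => exact Or.inr rfl
    | succ i =>
      have : arc ex ey (0, r) ξ i ∈ al ex ey r k ξ :=
        (mem_al ex ey).2 ⟨i, (Nat.lt_succ_self i).trans hi, rfl⟩
      rw [arc_succ] at h
      exact Or.inl (pin_bwd ex ey h (mem_union_right _ this) ▸ this)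
  hu := (mem_al ex ey).2 ⟨0, Nat.mul_pos hk (NeZero.pos T), rfl⟩
  hR := fun h => mem_rd.1 h hr
  few := by
    refine (card_le_card fun x hx => ?_).trans
      ((card_image_le (f := fun m => tip ex ey r m ξ)).trans (card_range k).le)
    obtain ⟨j, hj, e⟩ := (mem_al ex ey).1 (mem_filter.1 hx).2
    have ht := arc_time ex ey (0, r) ξ j
    rw [e] at ht
    obtain ⟨m, rfl⟩ : T ∣ j := Nat.dvd_of_mod_eq_zero (by simpa using ht.symm)
    refine mem_image.2 ⟨m, mem_range.2 ?_, by rw [tip, mul_comm, e]⟩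
    rw [mul_comm] at hj
    exact Nat.lt_of_mul_lt_mul_right hj

/-- the activity of the obstacle. -/
lemma obs_step {ω : Fin T × Λ → Option Bool} {ξ : Fin T → Bool}
    (hi : ∀ v, ω (Sg ex ey ξ v) = ω v) (r : Λ) (k : ℕ) {v : Fin T × Λ} (hv : v.1 + 1 ≠ 0) :
    Sg ex ey ξ v ∈ obs ex ey ω r k ξ ↔ v ∈ obs ex ey ω r k ξ := by
  rw [obs, mem_union, mem_union, mem_rd, hi, mem_rd]
  refine or_congr_right ⟨fun h => ?_, fun h => ?_⟩
  · obtain ⟨i, h1, e⟩ := (mem_al ex ey).1 h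
    cases i with
    | zero => exact absurd (congrArg Prod.fst e).symm hv
    | succ i =>
      rw [arc_succ] at e
      exact (mem_al ex ey).2 ⟨i, by omega, (Sg ex ey ξ).injective e⟩
  · obtain ⟨i, h1, rfl⟩ := (mem_al ex ey).1 h
    refine (mem_al ex ey).2 ⟨i + 1, lt_of_le_of_ne h1 fun e => hv ?_, arc_succ _ _ _ _ _⟩
    have := arc_tip ex ey r k ξ
    rw [← e, arc_succ] at this
    exact congrArg Prod.fst this

variable {ex ey} {R α : Finset (Fin T × Λ)} {r x : Λ} {k : ℕ}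

lemma Cut.ds (h : Cut ex ey p R α r x k) :
    DS (Kb ex ey p) Rᶜ (Rᶜ.filter fun v => v.1 = 0) where
  nonneg := Kb_nonneg ex ey h.hp
  sub := filter_subset _ _
  row := funext fun a => by
    rw [← mul_one (ind Rᶜ a), ← Kb_row ex ey p a, mul_sum]
    refine sum_congr rfl fun c _ => ?_
    rcases (Kb_nonneg ex ey h.hp a c).eq_or_lt with e | e
    · simp [← e]
    · simp [ind, h.red a c e]
  col := funext fun c => by
    rw [← mul_one (ind Rᶜ c), ← Kb_col ex ey p c, mul_sum]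
    refine sum_congr rfl fun a _ => ?_
    rcases (Kb_nonneg ex ey h.hp a c).eq_or_lt with e | e
    · simp [← e]
    · simp [ind, h.red a c e]

lemma bt_kill (R : Finset (Fin T × Λ)) (t : ℝ) :
    bt Rᶜ (Rᶜ.filter fun v => v.1 = 0) t = kill (Top.bt t) R := by
  funext v
  by_cases h : v ∈ R <;> by_cases h' : v.1 = 0 <;> simp [bt, kill, Top.bt, h, h']

lemma zg_kill (b : Fin T × Λ → ℝ) (ω : Fin T × Λ → Option Bool) : zg b ω = kill b (rd ω) := by
  funext v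
  by_cases h : ω v = none <;> simp [zg, kill, mem_rd, h]

lemma kb_mem {t : ℝ} (ht : 0 ≤ t ∧ t < 1) (O : Finset (Fin T × Λ)) (v : Fin T × Λ) :
    0 ≤ kill (Top.bt t) O v ∧ kill (Top.bt t) O v ≤ 1 := by
  unfold kill Top.bt; split_ifs <;> constructor <;> linarith [ht.1, ht.2]

lemma kb_tr (hp : ∀ s, 0 ≤ p s ∧ p s ≤ 1) {t : ℝ} (ht : 0 ≤ t ∧ t < 1) (O : Finset (Fin T × Λ)) :
    Tr (Kb ex ey p * diagonal (kill (Top.bt t) O)) :=
  tr_Kb ex ey hp (kb_mem ht O) ht fun x => by unfold kill Top.bt; split_ifs <;> simp_all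

lemma kb_mono {t t' : ℝ} (ht : 0 ≤ t') (h : t ≤ t') {O O' : Finset (Fin T × Λ)} (hO : O' ⊆ O)
    (v : Fin T × Λ) : kill (Top.bt t) O v ≤ kill (Top.bt t') O' v := by
  have := @hO v
  unfold kill Top.bt; split_ifs <;> simp_all

lemma kb_Gr (hp : ∀ s, 0 ≤ p s ∧ p s ≤ 1) {t t' : ℝ} (ht : 0 ≤ t) (h : t ≤ t') (h1 : t' < 1)
    {O O' : Finset (Fin T × Λ)} (hO : O' ⊆ O) (a c : Fin T × Λ) :
    Gr (Kb ex ey p * diagonal (kill (Top.bt t) O)) a c ≤
      Gr (Kb ex ey p * diagonal (kill (Top.bt t') O')) a c :=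
  (kb_tr hp ⟨ht.trans h, h1⟩ O').Gr_mono (kb_tr hp ⟨ht, h.trans_lt h1⟩ O).1
    (fun i j => by
      rw [mul_diagonal, mul_diagonal]
      exact mul_le_mul_of_nonneg_left (kb_mono (ht.trans h) h hO j) (Kb_nonneg ex ey hp i j)) a c

/-- the rank one step. -/
lemma Cut.rank (h : Cut ex ey p R α r x k) {t : ℝ} (ht : 0 ≤ t ∧ t < 1) :
    Gr (Kb ex ey p * diagonal (kill (Top.bt t) R)) (0, r) (0, r) - 1 ≤
      Gr (Kb ex ey p * diagonal (kill (Top.bt t) (R ∪ α))) (0, r) (0, x) *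
        Gr (Kb ex ey p * diagonal (kill (Top.bt t) R)) (0, r) (0, r) := by
  have hP := kb_tr (ex := ex) (ey := ey) h.hp ht R
  have hQ := kb_tr (ex := ex) (ey := ey) h.hp ht (R ∪ α)
  set G := Gr (Kb ex ey p * diagonal (kill (Top.bt t) R))
  set Q := Gr (Kb ex ey p * diagonal (kill (Top.bt t) (R ∪ α)))
  have K0 := Kb_nonneg ex ey h.hp
  have g0 := hP.nonneg (0, r) (0, r)
  have hα : ∀ a ∈ α, Q (0, r) a = if a = (0, r) then 1 else 0 := fun a ha => by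
    have := congrFun (congrFun hQ.right (0, r)) a
    rw [← Matrix.mul_assoc, Matrix.add_apply, mul_diagonal, kill, if_pos (mem_union_right _ ha),
      mul_zero, add_zero, one_apply] at this
    rw [show Q (0, r) a = _ from this]
    exact if_congr eq_comm rfl rfl
  have := hQ.cmp (h := fun v => G v (0, r)) (s := fun v => (if v = (0, r) then 1 else 0) +
    if v ≠ (0, r) ∧ (v ∈ α ∨ v = (0, x)) then G (0, r) (0, r) else 0) (fun v => ?_) (0, r)
  · have e : ∀ v, Q (0, r) v * ((if v = (0, r) then 1 else 0) +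
        if v ≠ (0, r) ∧ (v ∈ α ∨ v = (0, x)) then G (0, r) (0, r) else 0) ≤
        (if v = (0, r) then 1 else 0) + if v = (0, x) then Q (0, r) (0, x) * G (0, r) (0, r)
          else 0 := fun v => by
      have q0 := mul_nonneg (hQ.nonneg (0, r) (0, x)) g0
      by_cases h1 : v = (0, r)
      · rw [h1, hα _ h.hu]
        simp only [if_true, ne_eq, not_true, false_and, if_false, add_zero, mul_one,
          le_add_iff_nonneg_right]
        split_ifs; exacts [q0, le_rfl]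
      by_cases h2 : v ∈ α
      · rw [hα v h2, if_neg h1, zero_mul, zero_add]
        split_ifs; exacts [q0, le_rfl]
      · by_cases h3 : v = (0, x)
        · rw [if_neg h1, if_pos ⟨h1, Or.inr h3⟩, if_pos h3, zero_add, zero_add, ← h3]
        · simp [h1, h2, h3]
    have e' := sum_le_sum fun v (_ : v ∈ univ) => e v
    simp only [sum_add_distrib, sum_ite_eq', mem_univ, if_true] at e'
    exact sub_le_iff_le_add'.2 (this.trans e')
  rw [add_assoc]
  refine (hP.col v (0, r)).le.trans (add_le_add_right ?_ _)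
  have e : ∀ c, (Kb ex ey p * diagonal (kill (Top.bt t) R)) v c * G c (0, r) ≤
      Kb ex ey p v c * (if v ≠ (0, r) ∧ (v ∈ α ∨ v = (0, x)) then G (0, r) (0, r) else 0) +
        (Kb ex ey p * diagonal (kill (Top.bt t) (R ∪ α))) v c * G c (0, r) := fun c => by
    rw [mul_diagonal, mul_diagonal]
    rcases (K0 v c).eq_or_lt with e | e
    · simp [← e]
    by_cases hc : c ∈ α
    · rw [if_pos ⟨(h.fwd v c e hc).2, (h.fwd v c e hc).1⟩, kill, kill,
        if_pos (mem_union_right _ hc), mul_zero, zero_mul, add_zero, mul_assoc]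
      exact mul_le_mul_of_nonneg_left ((mul_le_of_le_one_left (hP.nonneg _ _)
        (kb_mem ht R c).2).trans (hP.col_le (row_Kb ex ey h.hp (kb_mem ht R)) c _)) e.le
    · rw [show kill (Top.bt t) (R ∪ α) c = kill (Top.bt t) R c by simp [kill, hc]]
      exact le_add_of_nonneg_left (mul_nonneg e.le (by split_ifs; exacts [g0, le_rfl]))
  have e' := sum_le_sum fun c (_ : c ∈ univ) => e c
  rwa [sum_add_distrib, ← sum_mul, Kb_row, one_mul] at e'

end Crest.Agent.N337.ZM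
end

-- ▼ part N337/Top/BDet
section

/-!
# Row 337, TOP (B), part 5: the deterministic bound on the diagonal Green function
-/

set_option autoImplicit false
set_option linter.unusedSectionVars false

namespace Crest.Agent.N337.ZM

open Finset Equiv Matrix Crest.MathPhysics.SpinModel Free Crest.Agent.N337.LY0 Crest.Agent.N337.Arc

variable {L n T : ℕ} [NeZero L] [NeZero T] (ex ey : Fin T → Tor 3 L × Fin n)

/-- long chains are exposed. -/
def Expo (p : Fin T → ℝ) (O : Finset (Fin T × (Tor 3 L × Fin n))) (ρ : ℕ) (C er : ℝ) : Prop :=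
  ∀ φ γ Γ, Lip ex ey p O φ γ Γ → ∃ (c : ℝ) (loc : Tor 3 L → ℝ), (0 ≤ c ∧ c ≤ Γ) ∧
    (∀ x, 0 ≤ loc x) ∧ ∑ x, loc x ≤ C * (∑ s, p s * (1 - p s) * γ s ^ 2 + er * Γ ^ 2) ∧
    ∀ N e, Walk ex ey p O N e → ρ ≤ tdist (e 0).2.1 (e N).2.1 →
      ∃ i ≤ N, ∃ x, tdist (e 0).2.1 x ≤ 2 * ρ ∧ (φ (e i) - c) ^ 2 ≤ loc x

variable {ex ey} {p : Fin T → ℝ} {R α : Finset (Fin T × (Tor 3 L × Fin n))}
  {r x : Tor 3 L × Fin n} {k ρ : ℕ} {C er y Γ : ℝ}

lemma swap_abs {Λ : Type} [DecidableEq Λ] (a c x : Λ) (f : Λ → ℝ) {q : ℝ} (hq : 0 ≤ q) :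
    |(1 - q) * f x + q * f (Equiv.swap a c x) - f x| ≤
      (if x = a ∨ x = c then q else 0) * |f a - f c| := by
  rw [show (1 - q) * f x + q * f (Equiv.swap a c x) - f x = q * (f (Equiv.swap a c x) - f x) by
    ring, abs_mul, abs_of_nonneg hq]
  by_cases h1 : x = a
  · simp [h1, abs_sub_comm]
  by_cases h2 : x = c
  · simp [h2]
  · simp [h1, h2, swap_apply_of_ne_of_ne h1 h2]

lemma Kb_nn (hnn : ∀ s, tdist (ex s).1 (ey s).1 ≤ 1) {a c : Fin T × (Tor 3 L × Fin n)}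
    (h : 0 < Kb ex ey p a c) : tdist c.2.1 a.2.1 ≤ 1 := by
  rcases (Kb_pos ex ey h).2 with h | h
  · rw [h.2, tdist_self]; omega
  · have := hnn c.1
    rw [h.2, swap_apply_def]
    split_ifs with h1 h2
    · rwa [h1]
    · rwa [h2, tdist_comm]
    · rw [tdist_self]; omega

lemma abs_le_of {a b Γ : ℝ} (ha : 0 ≤ a ∧ a ≤ Γ) (hb : 0 ≤ b ∧ b ≤ Γ) :
    0 ≤ |a - b| ∧ |a - b| ≤ Γ :=
  ⟨abs_nonneg _, abs_le.2 ⟨by linarith [ha.1, hb.2], by linarith [ha.2, hb.1]⟩⟩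

lemma sq_split {F φ c l d : ℝ} (h : (φ - c) ^ 2 ≤ l) (h1 : |F - φ| ≤ d) :
    (F - c) ^ 2 ≤ 2 * l + 2 * d ^ 2 := by
  have := pow_le_pow_left₀ (abs_nonneg _) h1 2
  rw [sq_abs] at this
  nlinarith [sq_nonneg (F - φ - (φ - c))]

lemma kb_pos {t : ℝ} {O : Finset (Fin T × (Tor 3 L × Fin n))} {a c : Fin T × (Tor 3 L × Fin n)}
    (hp : ∀ s, 0 ≤ p s ∧ p s ≤ 1) (h : 0 < (Kb ex ey p * diagonal (kill (Top.bt t) O)) a c) :
    0 < Kb ex ey p a c ∧ c ∉ O := by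
  rw [mul_diagonal] at h
  refine ⟨(Kb_nonneg ex ey hp a c).lt_of_ne fun e => ?_, fun hc => ?_⟩
  · simp [← e] at h
  · simp [kill, hc] at h

lemma kb_gap (hy : 0 ≤ y ∧ y < 1) {O : Finset (Fin T × (Tor 3 L × Fin n))}
    {v : Fin T × (Tor 3 L × Fin n)} (hv : v ∉ O) {a : ℝ} (ha : 0 ≤ a ∧ a ≤ Γ) :
    |a - kill (Top.bt y) O v * a| ≤ (1 - y) * Γ := by
  have := mul_le_mul_of_nonneg_left ha.2 (sub_pos.2 hy.2).le
  have := mul_nonneg (sub_pos.2 hy.2).le ha.1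
  rw [kill, if_neg hv, Top.bt]
  split_ifs <;> rw [abs_le] <;> constructor <;> linarith

lemma Cut.few' (h : Cut ex ey p R α r x k) : ((univ.filter fun z => ((0 : Fin T), z) ∉ R).filter
    fun z => ((0 : Fin T), z) ∈ R ∪ α).card ≤ k :=
  (card_le_card fun _ hz => mem_filter.2 ⟨mem_univ _, (mem_union.1 (mem_filter.1 hz).2).resolve_left
    (mem_filter.1 (mem_filter.1 hz).1).2⟩).trans h.few

/-- the bound of one side. -/
noncomputable def Xb (L n k ρ : ℕ) (C er m Γ : ℝ) : ℝ :=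
  (k + n * (2 * (ρ : ℝ) + 1) ^ 3) * Γ ^ 2 +
    2 * n * (6 * (ρ : ℝ) + 1) ^ 3 * (2 * (C * (2 * m * Γ + er * Γ ^ 2))) +
    2 * (n * (L : ℝ) ^ 3) * (2 * (m * Γ) ^ 2)

theorem Cut.col (h : Cut ex ey p R α r x k) (hnn : ∀ s, tdist (ex s).1 (ey s).1 ≤ 1)
    (hE : Expo ex ey p (R ∪ α) ρ C er) (C0 : 0 ≤ C) (hy : 0 ≤ y ∧ y < 1)
    (hΓ : (1 - y) * Gr (Kb ex ey p * diagonal (kill (Top.bt y) R)) (0, r) (0, r) ≤ Γ) :
    ∃ c, ∑ z ∈ univ.filter (fun z => ((0 : Fin T), z) ∉ R),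
      ((1 - y) * Gr (Kb ex ey p * diagonal (kill (Top.bt y) R)) (0, z) (0, r) - c) ^ 2 ≤
      Xb L n k ρ C er (1 - y) Γ + 2 * Γ ^ 2 * ((1 - y) * (n * (2 * (ρ : ℝ) + 1) ^ 3)) *
        ∑ z ∈ univ.filter (fun z => ((0 : Fin T), z) ∉ R),
          Gr (Kb ex ey p * diagonal (kill (Top.bt y) (R ∪ α))) (0, z) (0, z) := by
  have hP := kb_tr (ex := ex) (ey := ey) h.hp hy R
  have m0 := (sub_pos.2 hy.2).le
  have K0 := Kb_nonneg ex ey h.hp
  have b0 := kb_mem hy R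
  set b := kill (Top.bt y) R with hb
  obtain ⟨F, hF⟩ : ∃ F : Fin T × (Tor 3 L × Fin n) → ℝ,
    ∀ v, F v = (1 - y) * Gr (Kb ex ey p * diagonal b) v (0, r) := ⟨_, fun _ => rfl⟩
  have F0 : ∀ v, 0 ≤ F v ∧ F v ≤ Γ := fun v => by
    rw [hF]
    exact ⟨mul_nonneg m0 (hP.nonneg _ _), (mul_le_mul_of_nonneg_left
      (hP.col_le (row_Kb ex ey h.hp b0) v _) m0).trans hΓ⟩
  have φ0 : ∀ v, 0 ≤ b v * F v ∧ b v * F v ≤ Γ := fun v => ⟨mul_nonneg (b0 v).1 (F0 v).1,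
    (mul_le_of_le_one_left (F0 v).1 (b0 v).2).trans (F0 v).2⟩
  have eq : ∀ v, F v = (if v = (0, r) then 1 - y else 0) + (Kb ex ey p *ᵥ fun c => b c * F c) v :=
    fun v => by
      rw [hF, hP.col v, mul_add, mul_ite, mul_one, mul_zero]
      simp only [hF, mulVec, dotProduct, mul_diagonal, mul_sum]
      exact congrArg _ (sum_congr rfl fun c _ => by ring)
  have nu : ∀ v ∉ R ∪ α, v ≠ (0, r) := fun v hv e => hv (e ▸ mem_union_right _ h.hu)
  obtain ⟨c, loc, c0, l0, l1, l2⟩ := hE (fun v => b v * F v)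
    (fun s => |b (s, ex s) * F (s, ex s) - b (s, ey s) * F (s, ey s)|) Γ
    ⟨φ0, fun s => abs_le_of (φ0 _) (φ0 _), fun s => le_rfl, fun s z hs hz => by
      have : b (s + 1, z) = 1 := by simp [hb, kill, Top.bt, hs, notMem_mono subset_union_left hz]
      rw [this, one_mul, eq, if_neg (nu _ hz), zero_add, Kb_mv]
      exact swap_abs _ _ z (fun c => b (s, c) * F (s, c)) (h.hp s).1⟩
  have en : ∑ s, p s * (1 - p s) * |b (s, ex s) * F (s, ex s) - b (s, ey s) * F (s, ey s)| ^ 2 ≤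
      2 * (1 - y) * Γ := by
    have h1 := en_mv ex ey h.hp fun c => b c * F c
    have h2 := sq_src (0, r) (1 - y) _ eq
    have h3 : ∑ v, (b v * F v) ^ 2 ≤ ∑ v, F v ^ 2 := sum_le_sum fun v _ =>
      pow_le_pow_left₀ (φ0 v).1 (mul_le_of_le_one_left (F0 v).1 (b0 v).2) 2
    have h4 := mul_le_mul_of_nonneg_left (F0 (0, r)).2 m0
    linarith
  have out : ∀ v ∉ R ∪ α, v ≠ (0, x) → ∀ c, 0 < Kb ex ey p v c → c ∉ R ∪ α := fun v hv hx c hc => by
    rw [mem_union, not_or] at hv ⊢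
    exact ⟨mt (h.red v c hc).2 hv.1, fun h' => (h.fwd v c hc h').1.elim hv.2 hx⟩
  have := side (kb_tr h.hp hy (R ∪ α)) (row_Kb ex ey h.hp (kb_mem hy _))
    (col_Kb ex ey h.hp (kb_mem hy _)) (R ∪ α) F0 c0 m0 (δ := 2 * ((1 - y) * Γ) ^ 2) (by positivity)
    (0, x) (0 + 1) (fun v => ?_) (fun v hv hx => ?_) (fun a c h' _ => Or.inl (kb_pos h.hp h').2)
    (fun v hv hx => ?_) (loc := fun x => 2 * loc x) (fun x => mul_nonneg zero_le_two (l0 x)) ρ
    (fun N e e0 e1 e2 => ?_) _ h.few'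
  · refine ⟨c, le_trans (by simp only [hF]; exact le_rfl) (this.trans ?_)⟩
    rw [Xb, ← mul_sum]
    gcongr
    exact l1.trans (by gcongr)
  · rw [eq v]
    refine le_add_of_nonneg_of_le (by split_ifs; exacts [m0, le_rfl]) (sum_le_sum fun c _ => ?_)
    beta_reduce
    rw [mul_diagonal, mul_assoc]
    exact mul_le_mul_of_nonneg_left (mul_le_mul_of_nonneg_right
      (kb_mono hy.1 le_rfl subset_union_left c) (F0 c).1) (K0 v c)
  · rw [eq v, if_neg (nu v hv), zero_add]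
    refine sum_le_sum fun c _ => ?_
    beta_reduce
    rw [mul_diagonal, mul_assoc]
    rcases (K0 v c).eq_or_lt with e | e
    · simp [← e]
    · have := out v hv hx c e
      rw [hb, kill, kill, if_neg this, if_neg (notMem_mono subset_union_left this)]
  · have e1 : 1 - ∑ j, (Kb ex ey p * diagonal (kill (Top.bt y) (R ∪ α))) v j =
        ∑ j, (Kb ex ey p v j - (Kb ex ey p * diagonal (kill (Top.bt y) (R ∪ α))) v j) := by
      rw [sum_sub_distrib, Kb_row]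
    rw [e1, ← one_mul (ite _ _ _), ← Kb_row ex ey p v, sum_mul, Kb_row]
    refine sum_le_sum fun c _ => ?_
    rw [mul_diagonal, ← mul_one_sub]
    rcases (K0 v c).eq_or_lt with e | e
    · simp [← e]
    refine mul_le_mul_of_nonneg_left ?_ e.le
    rw [kill, if_neg (out v hv hx c e), Top.bt, (Kb_pos ex ey e).1]
    by_cases hc : c.1 = 0 <;> simp [hc]
  · obtain ⟨j, -, j1, j2⟩ := G1.Cr.rad (c := fun i => (e i).2.1) (Nat.zero_le N)
      (fun i _ hi => by rw [tdist_comm]; exact Kb_nn hnn (kb_pos h.hp (e1 i hi)).1) e2.le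
    have o : ∀ i ≤ N, e i ∉ R ∪ α := fun i hi => by
      cases i with
      | zero => exact e0
      | succ i => exact (kb_pos h.hp (e1 i hi)).2
    have st : ∀ i < j, 0 < Kb ex ey p (e (j - (i + 1))) (e (j - i)) := fun i hi => by
      have := (kb_pos h.hp (e1 (j - (i + 1)) (by omega))).1
      rwa [show j - (i + 1) + 1 = j - i by omega] at this
    obtain ⟨i, hi, z, z1, z2⟩ := l2 j (fun i => e (j - i)) ⟨fun i _ => o _ (by omega),
      fun i hi => (Kb_pos ex ey (st i hi)).1, fun i hi => (Kb_pos ex ey (st i hi)).2.imp_left (·.2)⟩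
      (by simp only [Nat.sub_zero, Nat.sub_self]; rw [tdist_comm]; exact j2.ge)
    refine ⟨j - i, by omega, z, ?_, sq_split z2 (kb_gap hy
      (notMem_mono subset_union_left (o _ (by omega))) (F0 _))⟩
    have := tdist_triangle (e 0).2.1 (e j).2.1 z
    simp only [Nat.sub_zero] at z1 j2
    omega

theorem Cut.row (h : Cut ex ey p R α r x k) (hnn : ∀ s, tdist (ex s).1 (ey s).1 ≤ 1)
    (hE : Expo ex ey p (R ∪ α) ρ C er) (C0 : 0 ≤ C) (hy : 0 ≤ y ∧ y < 1)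
    (hΓ : (1 - y) * Gr (Kb ex ey p * diagonal (kill (Top.bt y) R)) (0, r) (0, r) ≤ Γ) :
    ∃ c, ∑ z ∈ univ.filter (fun z => ((0 : Fin T), z) ∉ R),
      ((1 - y) * Gr (Kb ex ey p * diagonal (kill (Top.bt y) R)) (0, r) (0, z) - c) ^ 2 ≤
      Xb L n k ρ C er (1 - y) Γ + 2 * Γ ^ 2 * ((1 - y) * (n * (2 * (ρ : ℝ) + 1) ^ 3)) *
        ∑ z ∈ univ.filter (fun z => ((0 : Fin T), z) ∉ R),
          Gr (Kb ex ey p * diagonal (kill (Top.bt y) (R ∪ α))) (0, z) (0, z) := by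
  have hP := kb_tr (ex := ex) (ey := ey) h.hp hy R
  have m0 := (sub_pos.2 hy.2).le
  have K0 := Kb_nonneg ex ey h.hp
  have b0 := kb_mem hy R
  set b := kill (Top.bt y) R with hb
  obtain ⟨F, hF⟩ : ∃ F : Fin T × (Tor 3 L × Fin n) → ℝ,
    ∀ v, F v = (1 - y) * Gr (Kb ex ey p * diagonal b) (0, r) v := ⟨_, fun _ => rfl⟩
  have F0 : ∀ v, 0 ≤ F v ∧ F v ≤ Γ := fun v => by
    rw [hF]
    exact ⟨mul_nonneg m0 (hP.nonneg _ _), (mul_le_mul_of_nonneg_left
      (hP.row_le (col_Kb ex ey h.hp b0) _ v) m0).trans hΓ⟩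
  set ψ := (Kb ex ey p)ᵀ *ᵥ F with hψ
  have ψ0 : ∀ v, 0 ≤ ψ v ∧ ψ v ≤ Γ := fun v => by
    obtain ⟨s, z⟩ := v
    have h1 := F0 (s + 1, z)
    have h2 := F0 (s + 1, Equiv.swap (ex s) (ey s) z)
    have h3 := h.hp s
    rw [hψ, Kb_vm]
    constructor <;> nlinarith [h1.1, h1.2, h2.1, h2.2, h3.1, h3.2]
  have mv : ∀ (d : Fin T × (Tor 3 L × Fin n) → ℝ) v,
      ((Kb ex ey p * diagonal d)ᵀ *ᵥ F) v = d v * ψ v := fun d v => by
    rw [transpose_mul, diagonal_transpose, ← mulVec_mulVec, mulVec_diagonal]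
  have eq : ∀ v, F v = (if v = (0, r) then 1 - y else 0) + b v * ψ v := fun v => by
    have := hP.T.col v (0, r)
    rw [Gr_T, transpose_apply] at this
    rw [← mv, hF, this, mul_add, mul_ite, mul_one, mul_zero]
    simp only [hF, mulVec, dotProduct, mul_sum, transpose_apply]
    exact congrArg _ (sum_congr rfl fun c _ => by ring)
  have nu : ∀ v ∉ R ∪ α, v ≠ (0, r) := fun v hv e => hv (e ▸ mem_union_right _ h.hu)
  obtain ⟨c, loc, c0, l0, l1, l2⟩ := hE ψ (fun s => |F (s + 1, ex s) - F (s + 1, ey s)|) Γ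
    ⟨ψ0, fun s => abs_le_of (F0 _) (F0 _), fun s => by
      rw [hψ, Kb_vm, Kb_vm, swap_apply_left, swap_apply_right,
        show ∀ a c : ℝ, (1 - p s) * a + p s * c - ((1 - p s) * c + p s * a) =
          (1 - 2 * p s) * (a - c) from fun a c => by ring, abs_mul]
      exact mul_le_of_le_one_left (abs_nonneg _)
        (abs_le.2 ⟨by linarith [(h.hp s).2], by linarith [(h.hp s).1]⟩),
    fun s z hs hz => by
      have : b (s + 1, z) = 1 := by simp [hb, kill, Top.bt, hs, notMem_mono subset_union_left hz]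
      have e := eq (s + 1, z)
      rw [this, one_mul, if_neg (nu _ hz), zero_add] at e
      rw [← e, abs_sub_comm, hψ, Kb_vm]
      exact swap_abs _ _ z (fun c => F (s + 1, c)) (h.hp s).1⟩
  have en : ∑ s, p s * (1 - p s) * |F (s + 1, ex s) - F (s + 1, ey s)| ^ 2 ≤ 2 * (1 - y) * Γ := by
    have h1 := en_vm ex ey h.hp F
    have h2 := sq_src (0, r) (1 - y) _ eq
    have h3 : ∑ v, (b v * ψ v) ^ 2 ≤ ∑ v, ψ v ^ 2 := sum_le_sum fun v _ =>
      pow_le_pow_left₀ (mul_nonneg (b0 v).1 (ψ0 v).1) (mul_le_of_le_one_left (ψ0 v).1 (b0 v).2) 2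
    have h4 := mul_le_mul_of_nonneg_left (F0 (0, r)).2 m0
    linarith
  have := side (kb_tr h.hp hy (R ∪ α)).T (col_Kb ex ey h.hp (kb_mem hy _))
    (row_Kb ex ey h.hp (kb_mem hy _)) (R ∪ α) F0 c0 m0 (δ := 2 * ((1 - y) * Γ) ^ 2) (by positivity)
    (0, r) 0 (fun v => ?_) (fun v hv _ => ?_) (fun a c h' ha => ?_)
    (fun v hv _ => ?_) (loc := fun x => 2 * loc x) (fun x => mul_nonneg zero_le_two (l0 x)) ρ
    (fun N e e0 e1 e2 => ?_) _ h.few'
  · refine ⟨c, le_trans (by simp only [hF]; exact le_rfl) (this.trans ?_)⟩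
    simp only [Gr_T, transpose_apply]
    rw [Xb, ← mul_sum]
    gcongr
    exact l1.trans (by gcongr)
  · rw [eq v, mv]
    exact le_add_of_nonneg_of_le (by split_ifs; exacts [m0, le_rfl])
      (mul_le_mul_of_nonneg_right (kb_mono hy.1 le_rfl subset_union_left v) (ψ0 v).1)
  · rw [eq v, if_neg (nu v hv), zero_add, mv, hb, kill, kill, if_neg hv,
      if_neg (notMem_mono subset_union_left hv)]
  · have e := (kb_pos h.hp h').1
    rw [mem_union, not_or] at ha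
    by_cases hc : c ∈ α
    · exact Or.inr ((h.bwd c a e hc).resolve_left ha.2)
    · exact Or.inl fun h'' => (mem_union.1 h'').elim (mt (h.red c a e).1 ha.1) hc
  · simp only [transpose_apply, mul_diagonal, ← sum_mul, Kb_col, one_mul]
    rw [kill, if_neg hv, Top.bt]
    split_ifs <;> simp
  · obtain ⟨j, -, j1, j2⟩ := G1.Cr.rad (c := fun i => (e i).2.1) (Nat.zero_le N)
      (fun i _ hi => Kb_nn hnn (kb_pos h.hp (e1 i hi)).1) e2.le
    have jN : j < N := j1.lt_of_ne fun e' => by rw [e'] at j2; exact e2.ne' j2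
    have o : ∀ i ≤ j, e i ∉ R ∪ α := fun i hi => (kb_pos h.hp (e1 i (by omega))).2
    have st : ∀ i < j, 0 < Kb ex ey p (e (i + 1)) (e i) := fun i hi =>
      (kb_pos h.hp (e1 i (by omega))).1
    obtain ⟨i, hi, z, z1, z2⟩ := l2 j e ⟨o, fun i hi => (Kb_pos ex ey (st i hi)).1,
      fun i hi => (Kb_pos ex ey (st i hi)).2.imp_left (·.2)⟩ j2.ge
    refine ⟨i, by omega, z, by omega, sq_split z2 ?_⟩
    rw [eq, if_neg (nu _ (o i hi)), zero_add, abs_sub_comm]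
    exact kb_gap hy (notMem_mono subset_union_left (o i hi)) (ψ0 _)

lemma sum_slice (R : Finset (Fin T × (Tor 3 L × Fin n))) (f : Fin T × (Tor 3 L × Fin n) → ℝ) :
    ∑ v ∈ Rᶜ.filter (fun v => v.1 = 0), f v =
      ∑ z ∈ univ.filter (fun z => ((0 : Fin T), z) ∉ R), f (0, z) := by
  refine sum_nbij' (fun v => v.2) (fun z => (0, z)) ?_ ?_ ?_ ?_ ?_
  · rintro ⟨s, z⟩ hv
    obtain ⟨h1, rfl⟩ := mem_filter.1 hv
    simpa using h1
  · intro z hz; simpa using hz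
  · rintro ⟨s, z⟩ hv
    obtain ⟨-, rfl⟩ := mem_filter.1 hv
    rfl
  · intro z _; rfl
  · rintro ⟨s, z⟩ hv
    obtain ⟨-, rfl⟩ := mem_filter.1 hv
    rfl

/-- **the deterministic bound.** -/
theorem Cut.det (h : Cut ex ey p R α r x k) (hnn : ∀ s, tdist (ex s).1 (ey s).1 ≤ 1)
    (hE : Expo ex ey p (R ∪ α) ρ C er) (C0 : 0 ≤ C) {y' z g : ℝ} (hy : 0 < y) (hyy : y < y')
    (hyz : y' ≤ z) (hz : z < 1) (h2 : z - y ≤ 2 * (y' - y))
    (hg : Gr (Kb ex ey p * diagonal (kill (Top.bt y') (R ∪ α))) (0, r) (0, x) ≤ g)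
    (hg2 : g ≤ 1 / 2) :
    Gr (Kb ex ey p * diagonal (kill (Top.bt z) R)) (0, r) (0, r) - 1 ≤
      1 / (y * (1 - z)) / (univ.filter fun w => ((0 : Fin T), w) ∉ R).card +
      (6 * g + 1 / (y * (1 - z)) * Xb L n k ρ C er (1 - y) (2 * (1 - y))) +
      1 / (y * (1 - z)) * (8 * (1 - y) ^ 3 * (n * (2 * (ρ : ℝ) + 1) ^ 3)) *
        ∑ w ∈ univ.filter (fun w => ((0 : Fin T), w) ∉ R),
          Gr (Kb ex ey p * diagonal (kill (Top.bt z) R)) (0, w) (0, w) := by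
  have y1 : y' < 1 := hyz.trans_lt hz
  have y0 : 0 ≤ y' := (hy.trans hyy).le
  have hr := h.rank ⟨y0, y1⟩
  have g1 := (kb_tr (ex := ex) (ey := ey) h.hp ⟨y0, y1⟩ R).one_le (0, r)
  have g0 := ((kb_tr (ex := ex) (ey := ey) h.hp ⟨y0, y1⟩ (R ∪ α)).nonneg (0, r) (0, x)).trans hg
  have g2 := mul_le_mul_of_nonneg_right hg (zero_le_one.trans g1)
  have g3 : Gr (Kb ex ey p * diagonal (kill (Top.bt y') R)) (0, r) (0, r) ≤ 2 := by nlinarith
  have g4 : Gr (Kb ex ey p * diagonal (kill (Top.bt y') R)) (0, r) (0, r) - 1 ≤ 2 * g := by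
    nlinarith
  have m0 : 0 < 1 - y := sub_pos.2 (hyy.trans y1)
  have hΓ : (1 - y) * Gr (Kb ex ey p * diagonal (kill (Top.bt y) R)) (0, r) (0, r) ≤ 2 * (1 - y) := by
    rw [mul_comm 2]
    exact mul_le_mul_of_nonneg_left
      ((kb_Gr h.hp hy.le hyy.le y1 (Subset.refl R) _ _).trans g3) m0.le
  obtain ⟨c, hc⟩ := h.row hnn hE C0 ⟨hy.le, hyy.trans y1⟩ hΓ
  obtain ⟨c', hc'⟩ := h.col hnn hE C0 ⟨hy.le, hyy.trans y1⟩ hΓ
  have := h.ds.sharp hy hyy hyz hz h2 (by rw [bt_kill]; exact kb_tr h.hp ⟨y0.trans hyz, hz⟩ R)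
    (u := (0, r)) (mem_filter.2 ⟨mem_compl.2 h.hR, rfl⟩) c c'
  have cd := sum_slice R fun _ => 1
  simp only [sum_const, nsmul_eq_mul, mul_one] at cd
  simp only [bt_kill, sum_slice, cd] at this
  have hs : ∑ w ∈ univ.filter (fun w => ((0 : Fin T), w) ∉ R),
      Gr (Kb ex ey p * diagonal (kill (Top.bt y) (R ∪ α))) (0, w) (0, w) ≤
      ∑ w ∈ univ.filter (fun w => ((0 : Fin T), w) ∉ R),
        Gr (Kb ex ey p * diagonal (kill (Top.bt z) R)) (0, w) (0, w) :=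
    sum_le_sum fun w _ => kb_Gr h.hp hy.le (hyy.le.trans hyz) hz subset_union_left _ _
  have hs' := mul_le_mul_of_nonneg_left hs (show 0 ≤ 2 * (2 * (1 - y)) ^ 2 *
    ((1 - y) * (n * (2 * (ρ : ℝ) + 1) ^ 3)) by positivity)
  have a0 : 0 ≤ 1 / (y * (1 - z)) := by have := sub_pos.2 hz; positivity
  refine this.trans ((add_le_add (mul_le_mul_of_nonneg_left g4 (by norm_num))
    (mul_le_mul_of_nonneg_left (add_le_add_right (div_le_div_of_nonneg_right
      (add_le_add (hc.trans (add_le_add_right hs' _)) (hc'.trans (add_le_add_right hs' _)))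
      zero_le_two) _) a0)).trans (le_of_eq ?_))
  ring

end Crest.Agent.N337.ZM
end

-- ▼ part N337/Top/BFix
section

/-!
# Row 337, TOP (B), part 6: the long loops at fixed volume and fixed word
-/

set_option autoImplicit false
set_option linter.unusedSectionVars false

namespace Crest.Agent.N337.ZM

open Finset Equiv Matrix Crest.MathPhysics.SpinModel Free KV G1 Crest.Agent.N337.Rep
  Crest.Agent.N337.LY0 Crest.Agent.N337.Arc Crest.Agent.N337.Top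

/-- exposure from `Test` and `Chain`. -/
def ExpoStmt : Prop :=
  ∀ (n B : ℕ) (κ : ℝ), ∃ C : ℝ, 0 ≤ C ∧ ∀ (L T : ℕ) [NeZero L] [NeZero T]
    (ex ey : Fin T → Tor 3 L × Fin n) (p p0 c0 : Fin T → ℝ) (b : Fin T × (Tor 3 L × Fin n) → ℝ)
    (O : Finset (Fin T × (Tor 3 L × Fin n))) (E w : ℕ) (q : ℝ) (Bd : Finset ℕ) (P : Scales)
    (U : ℕ → Finset (Tor 3 L)) (j A l r3 : ℕ),
    Data ex ey p p0 b c0 O ∅ E w B q κ Bd P U j A → U P.mt = ∅ →
    Data3 ex ey p0 c0 O E w κ P U j A l r3 → Crs ex ey p0 E w B q Bd → (∀ s, 0 ≤ p s ∧ p s ≤ 1) →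
    100 ≤ L → Expo ex ey p O (P.η (P.mt - 1))
      (2 * C * (L : ℝ) ^ 2 * (P.K (P.mt - 1) * P.η (P.mt - 1)) ^ 4 + 8 * κ) (q ^ 2 * (L : ℝ) ^ 3)

lemma clamp_sq {a c Γ : ℝ} (ha : 0 ≤ a ∧ a ≤ Γ) : (a - max 0 (min c Γ)) ^ 2 ≤ (a - c) ^ 2 := by
  rcases le_total c Γ with h | h
  · rw [min_eq_left h]
    rcases le_total 0 c with h' | h'
    · rw [max_eq_right h']
    · rw [max_eq_left h']; nlinarith [ha.1]
  · rw [min_eq_right h, max_eq_right (ha.1.trans ha.2)]; nlinarith [ha.2]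

theorem expo_of (hT : TestStmt) (hC : ChainStmt) : ExpoStmt := by
  classical
  intro n B κ
  obtain ⟨C, C0, hT⟩ := hT n B κ
  refine ⟨C, C0, fun L T _ _ ex ey p p0 c0 b O E w q Bd P U j A l r3 D top D3 cr hp hL φ γ Γ hφ => ?_⟩
  obtain ⟨σ, c, hσ, h1⟩ := hT L T ex ey p p0 c0 b O E w q Bd P U j A l r3 D top D3 cr hp hL φ γ Γ hφ
  have hC := hC L n T ex ey p p0 c0 b O E w B q κ Bd P U j A l r3 D top D3 hp φ γ Γ hφ σ hσ
  have κ0 : 0 ≤ κ := zero_le_one.trans D.clock.hκ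
  have Γ0 : 0 ≤ Γ := (hφ.gam 0).1.trans (hφ.gam 0).2
  have F0 : ∀ s, 0 ≤ p s * (1 - p s) * γ s ^ 2 := fun s =>
    mul_nonneg (mul_nonneg (hp s).1 (sub_nonneg.2 (hp s).2)) (sq_nonneg _)
  set f : Tor 3 L × Fin n → ℝ := fun z =>
    2 * ∑ t ∈ range B, (if Tst O P U A (σ t * E) z then (φ (tm T (σ t * E), z) - c) ^ 2 else 0) +
      4 * κ * ∑ s, if z = ex s ∨ z = ey s then p s * (1 - p s) * γ s ^ 2 else 0 with hf
  have t0 : ∀ z t, 0 ≤ if Tst O P U A (σ t * E) z then (φ (tm T (σ t * E), z) - c) ^ 2 else 0 :=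
    fun z t => by split_ifs; exacts [sq_nonneg _, le_rfl]
  have f0 : ∀ z, 0 ≤ f z := fun z => add_nonneg
    (mul_nonneg zero_le_two (sum_nonneg fun t _ => t0 z t)) (mul_nonneg (by positivity)
      (sum_nonneg fun s _ => by split_ifs; exacts [F0 s, le_rfl]))
  refine ⟨max 0 (min c Γ), fun x => ∑ a, f (x, a), ⟨le_max_left _ _, max_le Γ0 (min_le_right _ _)⟩,
    fun x => sum_nonneg fun a _ => f0 _, ?_, fun N e he hd => ?_⟩
  · rw [← Fintype.sum_prod_type]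
    simp only [hf, sum_add_distrib, ← mul_sum]
    rw [sum_comm, sum_comm (s := univ) (t := univ)]
    simp only [← sum_filter]
    have h2 : ∑ s, ∑ _z ∈ univ.filter (fun z => z = ex s ∨ z = ey s), p s * (1 - p s) * γ s ^ 2 ≤
        2 * ∑ s, p s * (1 - p s) * γ s ^ 2 := by
      rw [mul_sum]
      refine sum_le_sum fun s _ => ?_
      rw [sum_const, nsmul_eq_mul]
      refine mul_le_mul_of_nonneg_right ?_ (F0 s)
      exact_mod_cast (card_le_card fun z hz => by simpa using hz).trans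
        (card_le_two (a := ex s) (b := ey s))
    have h3 := mul_le_mul_of_nonneg_left h2 (show 0 ≤ 4 * κ by positivity)
    have h4 : 0 ≤ κ * (q ^ 2 * (L : ℝ) ^ 3 * Γ ^ 2) := by positivity
    linarith
  · obtain ⟨i, hi, t, ht, z, h2, h3, h4⟩ := hC N e he hd
    refine ⟨i, hi, z.1, h3, (clamp_sq (hφ.bd _)).trans (le_trans ?_
      (single_le_sum (f := fun a => f (z.1, a)) (fun a _ => f0 _) (mem_univ z.2)))⟩
    have h5 := single_le_sum (fun t _ => t0 z t) (mem_range.2 ht)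
    rw [if_pos h2] at h5
    simp only [hf]
    nlinarith [sq_nonneg (φ (e i) - φ (tm T (σ t * E), z) - (φ (tm T (σ t * E), z) - c))]

variable {L n T : ℕ} [NeZero L] [NeZero T] {ex ey : Fin T → Tor 3 L × Fin n} {p0 : Fin T → ℝ}

lemma env_pin (hnn : ∀ s, tdist (ex s).1 (ey s).1 ≤ 1) (y : ℝ)
    (O : Finset (Fin T × (Tor 3 L × Fin n))) (ξ : Fin T → Bool) :
    G1.Env ex ey (pin p0 (Arc.tch ex ey O) ξ) p0 (kill (Top.bt y) O) (b0 y) O ∅ where
  nn s _ := hnn s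
  bR _ hv := if_pos hv
  bZ _ hv := absurd hv (notMem_empty _)
  bf _ hv _ := if_neg hv
  free _ h1 h2 := Or.inl (if_neg fun k => ((mem_tch ex ey).1 k).elim h1 h2)

lemma ch_obs {ω : Fin T × (Tor 3 L × Fin n) → Option Bool} {ξ : Fin T → Bool}
    (hi : ∀ v, ω (Sg ex ey ξ v) = ω v) (r : Tor 3 L × Fin n) (k : ℕ) (s : Fin T)
    (y : Tor 3 L × Fin n)
    (h : Ch ex ey (pin p0 (Arc.tch ex ey (obs ex ey ω r k ξ)) ξ) (obs ex ey ω r k ξ) s y) :
    s + 1 = 0 ∨ (ξ s = true ∧ (y = ex s ∨ y = ey s) ∧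
      ((s, ex s) ∈ obs ex ey ω r k ξ ∨ (s, ey s) ∈ obs ex ey ω r k ξ)) := by
  refine or_iff_not_imp_left.2 fun hs => ?_
  have st := fun z => obs_step ex ey hi r k (v := (s, z)) hs
  simp only [Sg_apply] at st
  rcases h with h | ⟨h1, h2, h3, -⟩
  · have hξ : ξ s = true := by
      by_contra hn
      exact h (by simpa [sg, hn] using (st y).symm)
    simp only [sg, hξ, if_true] at st
    have hy : y = ex s ∨ y = ey s := by
      by_contra! hn
      exact h (by simpa [swap_apply_of_ne_of_ne hn.1 hn.2] using (st y).symm)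
    refine ⟨hξ, hy, ?_⟩
    have a1 := st (ex s)
    have a2 := st (ey s)
    rw [swap_apply_left] at a1
    rw [swap_apply_right] at a2
    rcases hy with rfl | rfl <;> tauto
  · have ht : (s, ex s) ∈ obs ex ey ω r k ξ ∨ (s, ey s) ∈ obs ex ey ω r k ξ :=
      h1.elim (fun e => Or.inl (e ▸ h2)) fun e => Or.inr (e ▸ h2)
    refine ⟨?_, h1, ht⟩
    by_contra hn
    exact h3 (by simp [pin, (mem_tch ex ey).2 ht, hn])

lemma kb_zero {y : ℝ} (hy : 0 ≤ y) (O : Finset (Fin T × (Tor 3 L × Fin n)))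
    (x : Tor 3 L × Fin n) : kill (Top.bt y) O (0, x) ≤ y := by
  unfold kill Top.bt; split_ifs <;> simp_all

lemma eta_mono {P : Scales} {L : ℕ} (h : P.Ok L) {m m' : ℕ} (h1 : m ≤ m') (h2 : m' < P.mt) :
    P.η m ≤ P.η m' := by
  induction m', h1 using Nat.le_induction with
  | base => exact le_rfl
  | succ k _ ih =>
    have := h.grow k h2
    have := Nat.le_mul_of_pos_left (2 * (P.σ (k + 1) + P.ρ (k + 1)) + 2 * P.η k + 1)
      (show 0 < P.a (k + 1) + 1 from Nat.succ_pos _)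
    have := ih (by omega)
    omega

lemma cc_le {P : Scales} {A m1 d : ℕ} (h1 : 1 ≤ P.η (m1 - 1)) (hA : A ≤ P.η (m1 - 1))
    (hd : 8 * P.η (m1 - 1) ≤ d) : Cc P A m1 (d / 2) * P.η (m1 - 1) / ((d / 2 : ℕ) : ℝ) ≤
      2 * 10 ^ 7 * (P.K (m1 - 1) * (1 + (Nat.log 2 d : ℝ)) ^ 2 * (P.η (m1 - 1) : ℝ) ^ 2 / d) := by
  have K1 := one_le_K P (m1 - 1)
  have e1 : (1 : ℝ) ≤ P.η (m1 - 1) := by exact_mod_cast h1
  have e2 : (A : ℝ) ≤ P.η (m1 - 1) := by exact_mod_cast hA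
  have e3 : (d : ℝ) ≤ 3 * ((d / 2 : ℕ) : ℝ) := by exact_mod_cast (by omega : d ≤ 3 * (d / 2))
  have d0 : (0 : ℝ) < d := by exact_mod_cast (by omega : 0 < d)
  have e4 : (Nat.log 2 (d / 2) : ℝ) ≤ Nat.log 2 d :=
    Nat.cast_le.2 (Nat.log_mono_right (Nat.div_le_self _ _))
  set X := P.K (m1 - 1) * (1 + (Nat.log 2 d : ℝ)) ^ 2 with hX
  have X1 : 1 ≤ X := one_le_mul_of_one_le_of_one_le K1
    (one_le_pow₀ (le_add_of_nonneg_right (Nat.cast_nonneg _)))
  have e5 : P.K (m1 - 1) * (1 + (Nat.log 2 (d / 2) : ℝ)) ^ 2 ≤ X := by rw [hX]; gcongr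
  have e6 : Cc P A m1 (d / 2) ≤ (6 * 10 ^ 6 + 16) * (X * P.η (m1 - 1)) := by
    unfold Cc; nlinarith
  calc _ ≤ (6 * 10 ^ 6 + 16) * (X * P.η (m1 - 1)) * P.η (m1 - 1) / (d / 3) := by
        gcongr; linarith
    _ = 3 * (6 * 10 ^ 6 + 16) * (X * (P.η (m1 - 1) : ℝ) ^ 2 / d) := by field_simp
    _ ≤ _ := mul_le_mul_of_nonneg_right (by norm_num) (by positivity)

lemma sum_WR (b : Fin T × (Tor 3 L × Fin n) → ℝ)
    (E : (Fin T → Bool) → Finset (Fin T × (Tor 3 L × Fin n)) → Prop)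
    [∀ ξ R, Decidable (E ξ R)] :
    ∑ ξ, ∑ ω, nuw ex ey p0 b ξ ω * (if E ξ (rd ω) then 1 else 0) = RR.WR ex ey p0 b E := by
  refine sum_congr rfl fun ξ _ => ?_
  rw [mul_sum]
  refine sum_congr rfl fun ω _ => ?_
  have e : RR.red ω = rd ω := rfl
  by_cases h1 : ∀ v, ω (Sg ex ey ξ v) = ω v
  · by_cases h2 : E ξ (rd ω)
    · rw [nuw, if_pos h1, if_pos h2, if_pos (And.intro h1 (e ▸ h2)), mul_one]
    · rw [if_neg h2, if_neg (mt And.right (e ▸ h2)), mul_zero, mul_zero]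
  · rw [nuw, if_neg h1, if_neg (mt And.left h1), mul_zero, zero_mul]

/-- **long loops at fixed volume.** -/
theorem long_fix {E w B : ℕ} {q κ y y' z g δ C er : ℝ} {Bd : Finset ℕ} {P : Scales}
    {j A l r3 m1 d K K0 : ℕ} (hp : ∀ s, 0 ≤ p0 s ∧ p0 s ≤ 1)
    (hnn : ∀ s, tdist (ex s).1 (ey s).1 ≤ 1) (hC : Clock ex ey p0 (b0 y') E w B q κ Bd)
    (hP : Pers ex ey p0 (b0 y') E w κ) (fine : 2 * (Bd.card + L ^ 3 * j + 1) ≤ w)
    (hX : ∀ p b O U, Data ex ey p p0 b (b0 y') O ∅ E w B q κ Bd P U j A → U P.mt = ∅ →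
      Data3 ex ey p0 (b0 y') O E w κ P U j A l r3 → (∀ s, 0 ≤ p s ∧ p s ≤ 1) →
      Expo ex ey p O (P.η (P.mt - 1)) C er) (C0 : 0 ≤ C) (er0 : 0 ≤ er)
    (hy : 0 < y) (hyy : y < y') (hyz : y' ≤ z) (hz : z < 1) (h2 : z - y ≤ 2 * (y' - y))
    (hm1 : 1 ≤ m1) (hm1' : m1 ≤ P.mt) (hK : 2 * (2 ^ K - 1) < L)
    (hKη : P.Ok L → ∀ m < m1, P.η m ≤ 2 ^ K - 1) (hdη : 8 * P.η (m1 - 1) ≤ d)
    (hg : Cg κ * (4 / (1 - y') / (2 * ((2 ^ K - 1 : ℕ) : ℝ) + 1) ^ 3 +
      2 * 10 ^ 7 * (P.K (m1 - 1) * (1 + (Nat.log 2 d : ℝ)) ^ 2 * (P.η (m1 - 1) : ℝ) ^ 2 / d) +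
        err q y' L n B) ≤ g)
    (g0 : 0 ≤ g) (hg2 : g ≤ 1 / 2) (hK0 : 0 < K0)
    (U : (Fin T → Bool) → Finset (Fin T × (Tor 3 L × Fin n)) → ℕ → Finset (Tor 3 L))
    (hW : RR.WR ex ey p0 (Top.bt z) (fun ξ R => ¬ Good ex ey p0 E w P j A l r3 ξ R (U ξ R)) ≤ δ)
    (hW' : ∀ x, RR.WR ex ey p0 (Top.bt z) (fun ξ R => ¬ Clean P (U ξ R) x m1 d) ≤ δ) :
    EE ex ey p0 (Top.bt z) (fun π D => (Top.N0 D : ℝ) - Ns (2 * K0) π D) ≤
      (1 / (y * (1 - z)) + ((6 * g + 1 / (y * (1 - z)) *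
        Xb L n (2 * K0) (P.η (P.mt - 1)) C er (1 - y) (2 * (1 - y))) +
        1 / (y * (1 - z)) * (8 * (1 - y) ^ 3 * (n * (2 * (P.η (P.mt - 1) : ℝ) + 1) ^ 3)) *
          (n * (L : ℝ) ^ 3) + (n * (2 * d + 1) ^ 3 : ℕ) / K0) * (n * (L : ℝ) ^ 3)) *
        EE ex ey p0 (Top.bt z) (fun _ _ => 1) + n * (L : ℝ) ^ 3 * (2 * δ) := by
  classical
  have z0 : 0 ≤ z := ((hy.trans hyy).trans_le hyz).le
  have y1 : y' < 1 := hyz.trans_lt hz
  have m0 : 0 < 1 - y := sub_pos.2 (hyy.trans y1)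
  have a0 : 0 ≤ 1 / (y * (1 - z)) := by have := sub_pos.2 hz; positivity
  have hb : Fld (Top.bt z : Fin T × (Tor 3 L × Fin n) → ℝ) :=
    ⟨fun v => ⟨Top.bt_nonneg z0 v, bt_le_one hz.le v⟩, fun x => by simpa [Top.bt] using hz⟩
  have cd : (Fintype.card (Tor 3 L × Fin n) : ℝ) = n * (L : ℝ) ^ 3 := by
    rw [Fintype.card_prod, card_Tor, Fintype.card_fin]; push_cast; ring
  have := arc_red ex ey hp hb hK0 (Nb := n * (2 * d + 1) ^ 3) (fun r x => tdist x.1 r.1 < d)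
    (fun r => ?_) (fun r O p => ∃ V, V P.mt = ∅ ∧ Geom ex ey p O P V (w * E) j A ∧
      Data3 ex ey p0 (b0 y') O E w κ P V j A l r3 ∧ Clean P V r.1 m1 d)
    (fun r ξ ω => ¬ Good ex ey p0 E w P j A l r3 ξ (rd ω) (U ξ (rd ω)) ∨
      ¬ Clean P (U ξ (rd ω)) r.1 m1 d) a0
    (e1 := 6 * g + 1 / (y * (1 - z)) * Xb L n (2 * K0) (P.η (P.mt - 1)) C er (1 - y) (2 * (1 - y)))
    (e := 1 / (y * (1 - z)) * (8 * (1 - y) ^ 3 * (n * (2 * (P.η (P.mt - 1) : ℝ) + 1) ^ 3)))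
    (by unfold Xb; positivity) (by positivity)
    (fun r k hk ξ ω hi hr hl hn ⟨V, top, hG, D3, hcl⟩ => ?_)
    fun r k ξ ω ω' hi hi' hl hs hB => ?_
  · rw [cd] at this
    refine this.trans (add_le_add_right ?_ _)
    rw [← cd, ← nsmul_eq_mul, ← card_univ, ← sum_const]
    refine sum_le_sum fun r _ => ?_
    rw [two_mul]
    refine le_trans ?_ (add_le_add hW (hW' r.1))
    rw [← sum_WR, ← sum_WR, ← sum_add_distrib]
    refine sum_le_sum fun ξ _ => ?_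
    rw [← sum_add_distrib]
    refine sum_le_sum fun ω _ => ?_
    rw [← mul_add]
    refine mul_le_mul_of_nonneg_left ?_ (nuw_nonneg ex ey hp hb ξ ω)
    split_ifs <;> first | tauto | norm_num
  · have := card_near (n := n) r.1 d
    refine le_trans (card_le_card fun x hx => ?_) (Nat.cast_le (α := ℝ).1 (this.trans_eq ?_))
    · simp only [mem_filter, mem_univ, true_and] at hx ⊢
      rw [tdist_comm]; exact hx.le
    · push_cast; rfl
  · have η1 : 1 ≤ P.η (m1 - 1) := by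
      have h1 := hG.ok.ρη (m1 - 1) (by omega)
      have h2 := one_le_tS
      unfold Scales.ρ at h1
      omega
    have hA := hG.hA.2.trans (eta_mono hG.ok (Nat.zero_le (m1 - 1)) (by omega))
    have hd : 0 < d := by omega
    have k0 : 0 < k := Nat.pos_of_ne_zero fun e => hn (by
      subst e; simpa [tip, arc_zero, tdist_self] using hd)
    have hc := cut_arc ex ey hp hi hr k0 hl
    have hc' := Cut.mk hc.hp hc.red hc.fwd hc.bwd hc.hu hc.hR (hc.few.trans hk.le)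
    have D := Data.mk (env_pin hnn y' (obs ex ey ω r k ξ) ξ) hC hG fine
    have y0 := (hy.trans hyy).le
    have G := (grn_inv (ex := ex) (ey := ey) hc.hp (kb_mem ⟨y0, y1⟩ (obs ex ey ω r k ξ))
      ⟨y0, y1⟩ ⟨0, kb_zero y0 _⟩ (0, tip ex ey r k ξ)).2
    have h3 := G1d_clean (v := (0, r)) (d := d / 2) G D D3 top hm1 hm1' (hcl.mono (by omega)) hK
      (hKη hG.ok) (by have := sub_pos.2 y1; positivity) (top_mass G (Nat.one_le_pow _ _ (by omega)))
      (Or.inr rfl) ((Nat.div_le_self _ _).trans (not_lt.1 hn)) (by omega)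
    rw [if_neg fun e => hn (by rw [← (Prod.mk.inj e).2, tdist_self]; exact hd),
      sub_zero] at h3
    have c0 : 0 ≤ Cg κ := by have := hC.hκ; unfold Cg; positivity
    have h4 := hc'.det hnn (hX _ _ _ V D top D3 hc.hp) C0 hy hyy hyz hz h2 ((h3.trans
      (mul_le_mul_of_nonneg_left (add_le_add_left (add_le_add (by push_cast; exact le_rfl)
        (cc_le η1 hA hdη)) _) c0)).trans hg) hg2
    have e : gs ω = univ.filter fun w => ((0 : Fin T), w) ∉ rd ω :=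
      filter_congr fun w _ => by simp [mem_rd]
    rw [zg_kill, e]
    exact h4
  · rw [not_or, not_not, not_not] at hB
    obtain ⟨h1, h2⟩ := hB.1.2 _ _ hs fun s y h => (ch_obs hi r k s y h).imp_right
      fun h => ⟨h.1, h.2.1, h.2.2.imp (@hs _) (@hs _)⟩
    exact ⟨_, hB.1.1, h1, h2 _ _ hP, hB.2⟩

end Crest.Agent.N337.ZM
end

-- ▼ part N337/Top/BChain

/-!
# Row 337, TOP (B): a long chain is seen by a test slot (`ChainStmt`, helper64)
-/

set_option autoImplicit false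
set_option linter.unusedSectionVars false

namespace Crest.Agent.N337.ZM

open Finset Filter Equiv Crest.MathPhysics.SpinModel Geo Free KV G1 Crest.Agent.N337.Top

namespace Chn

variable {L n T : ℕ} [NeZero L] [NeZero T] {ex ey : Fin T → Tor 3 L × Fin n}
  {p p0 c0 : Fin T → ℝ} {b : Fin T × (Tor 3 L × Fin n) → ℝ}
  {O : Finset (Fin T × (Tor 3 L × Fin n))} {φ : Fin T × (Tor 3 L × Fin n) → ℝ} {γ : Fin T → ℝ}
  {Γ κ : ℝ} {E w : ℕ}

theorem time {N : ℕ} {e : ℕ → Fin T × (Tor 3 L × Fin n)} (h : Walk ex ey p O N e) {i : ℕ}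
    (hi : i ≤ N) : (e i).1 = tm T ((e 0).1.val + i) := by
  induction i with
  | zero => rw [Nat.add_zero, tm_fin]
  | succ i ih => rw [h.time i hi, ih (by omega), ← tm_succ, Nat.add_assoc]

/-- telescoping inside one window. -/
theorem tele (hL : Lip ex ey p O φ γ Γ) {D W : ℕ} (hD : D ∣ T) {z : Tor 3 L × Fin n}
    (hz : ∀ k ∈ Ico (W * D) ((W + 1) * D), (tm T k, z) ∉ O) {a c : ℕ} (ha : W * D ≤ a)
    (hac : a ≤ c) (hc : c < (W + 1) * D) :
    |φ (tm T c, z) - φ (tm T a, z)| ≤ ∑ k ∈ Ico a c,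
      (if z = ex (tm T k) ∨ z = ey (tm T k) then p (tm T k) else 0) * γ (tm T k) := by
  induction c, hac using Nat.le_induction with
  | base => simp
  | succ k hk ih =>
    have i1 := ih (by omega)
    have h0 : tm T k + 1 ≠ 0 := by
      rw [← tm_succ]
      intro h
      have h1 : (k + 1) % T = 0 := congrArg Fin.val h
      obtain ⟨m, hm⟩ := hD.trans (Nat.dvd_of_mod_eq_zero h1)
      rw [hm, mul_comm D m] at hc
      have h2 : W * D < m * D := by rw [mul_comm m D, ← hm]; omega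
      have h3 := Nat.lt_of_mul_lt_mul_right hc
      have h4 := Nat.lt_of_mul_lt_mul_right h2
      omega
    have i2 := hL.step (tm T k) z h0 (by
      rw [← tm_succ]
      exact hz _ (mem_Ico.2 ⟨by omega, hc⟩))
    rw [sum_Ico_succ_top hk, tm_succ]
    have := abs_sub_le (φ (tm T k + 1, z)) (φ (tm T k, z)) (φ (tm T a, z))
    linarith

/-- a slot far from `O` sees free steps only. -/
theorem free (hE : Env ex ey p p0 b c0 O ∅) {z : Tor 3 L × Fin n} {s : Fin T}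
    (hr : ∀ y, (s, y) ∈ O → 1 < tdist z.1 y.1) (h : z = ex s ∨ z = ey s) :
    p s = 0 ∨ p s = p0 s := by
  by_cases e : p s = 0
  · exact Or.inl e
  have hn := hE.nn _ e
  have a1 : tdist z.1 (ex s).1 ≤ 1 ∧ tdist z.1 (ey s).1 ≤ 1 := by
    rcases h with rfl | rfl
    · exact ⟨by rw [tdist_self]; omega, hn⟩
    · exact ⟨by rwa [tdist_comm], by rw [tdist_self]; omega⟩
  rcases hE.free _ (fun h => (hr _ h).not_ge a1.1) (fun h => (hr _ h).not_ge a1.2) with e | e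
  · exact Or.inr e
  · exact absurd e.1 (notMem_empty _)

/-- the static slot. -/
theorem stat (hL : Lip ex ey p O φ γ Γ) (hE : Env ex ey p p0 b c0 O ∅)
    (hP : Pers ex ey p0 c0 E w κ) (hp0 : ∀ s, 0 ≤ p0 s ∧ p0 s ≤ 1 / 2)
    (hp : ∀ s, 0 ≤ p s ∧ p s ≤ 1) (hD : w * E ∣ T) {W : ℕ} {z : Tor 3 L × Fin n}
    (hR : ∀ k ∈ Ico (W * (w * E)) ((W + 2) * (w * E)), ∀ y, (tm T k, y) ∈ O → 1 < tdist z.1 y.1)
    {a c : ℕ} (ha : W * (w * E) ≤ a) (hac : a ≤ c) (hc : c < (W + 1) * (w * E)) :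
    (φ (tm T c, z) - φ (tm T a, z)) ^ 2 ≤
      2 * κ * ∑ s, if z = ex s ∨ z = ey s then p s * (1 - p s) * γ s ^ 2 else 0 := by
  have hW : (W + 1) * (w * E) ≤ (W + 2) * (w * E) := Nat.mul_le_mul_right _ (by omega)
  have t1 := tele hL hD (z := z) (W := W) (fun k hk h => by
    have := hR k (mem_Ico.2 ⟨(mem_Ico.1 hk).1, (mem_Ico.1 hk).2.trans_le hW⟩) z h
    rw [tdist_self] at this
    omega) ha hac hc
  set G : Fin T → ℝ := fun s => if z = ex s ∨ z = ey s then p s * (1 - p s) * γ s ^ 2 else 0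
    with hG
  have G0 : ∀ s, 0 ≤ G s := fun s => by
    simp only [hG]
    split_ifs
    · exact mul_nonneg (mul_nonneg (hp s).1 (sub_nonneg.2 (hp s).2)) (sq_nonneg _)
    · exact le_rfl
  have t2 := sum_sq_le_sum_mul_sum_of_sq_le_mul (Ico a c)
    (r := fun k => (if z = ex (tm T k) ∨ z = ey (tm T k) then p (tm T k) else 0) * γ (tm T k))
    (f := tch ex ey p0 z) (g := fun k => 2 * G (tm T k))
    (fun k _ => (Cr.tch_bd hp0 z k).1) (fun k _ => mul_nonneg zero_le_two (G0 _)) (fun k hk => by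
      simp only [hG, tch]
      split_ifs with h
      · rcases free hE (hR k (mem_Ico.2 ⟨ha.trans (mem_Ico.1 hk).1,
          ((mem_Ico.1 hk).2.trans hc).trans_le hW⟩)) h with e | e
        · rw [e]
          simp
        · rw [e]
          have h1 := hp0 (tm T k)
          have h2 : 0 ≤ p0 (tm T k) ^ 2 * γ (tm T k) ^ 2 * (1 - 2 * p0 (tm T k)) :=
            mul_nonneg (by positivity) (by linarith [h1.2])
          nlinarith
      · simp)
  have t3 : ∑ k ∈ Ico a c, tch ex ey p0 z k ≤ κ := (sum_le_sum_of_subset_of_nonneg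
    (Ico_subset_Ico ha (hc.le.trans hW)) fun a _ _ => (Cr.tch_bd hp0 z a).1).trans (hP.rate W z)
  have hDT : w * E ≤ T := Nat.le_of_dvd (NeZero.pos T) hD
  have t4 : ∑ k ∈ Ico a c, G (tm T k) ≤ ∑ s, G s := by
    rw [← sum_image (f := G) (g := tm T) (s := Ico a c) fun k hk k' hk' e => by
      obtain ⟨k1, k2⟩ := mem_Ico.1 (mem_coe.1 hk)
      obtain ⟨k3, k4⟩ := mem_Ico.1 (mem_coe.1 hk')
      rw [add_mul, one_mul] at hc
      have := (tm_add_inj (T := T) a (a := k - a) (b := k' - a) (by omega) (by omega)).1 (by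
        rwa [Nat.add_sub_cancel' k1, Nat.add_sub_cancel' k3])
      omega]
    exact sum_le_univ_sum_of_nonneg G0
  have t5 : 0 ≤ ∑ k ∈ Ico a c, G (tm T k) := sum_nonneg fun k _ => G0 _
  have t6 : 0 ≤ ∑ k ∈ Ico a c, tch ex ey p0 z k := sum_nonneg fun k _ => (Cr.tch_bd hp0 z k).1
  rw [← mul_sum] at t2
  rw [← sq_abs]
  calc _ ≤ _ := pow_le_pow_left₀ (abs_nonneg _) t1 2
    _ ≤ _ := t2
    _ ≤ κ * (2 * ∑ s, G s) := mul_le_mul t3 (by linarith) (by linarith) (t6.trans t3)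
    _ = _ := by ring

/-- the test step of a window. -/
theorem step {B : ℕ} (hT : T = B * w * E) {σ : ℕ → ℕ}
    (hσ : ∀ t < B, σ t ∈ Ico (t * w) ((t + 1) * w)) (W : ℕ) :
    ∃ t < B, ∃ k ∈ Ico (W * (w * E)) ((W + 1) * (w * E)), tm T k = tm T (σ t * E) := by
  have hT0 := NeZero.pos T
  have hB : 0 < B := Nat.pos_of_ne_zero fun h => by rw [hT, h] at hT0; simp at hT0
  have hD : 0 < w * E := Nat.pos_of_ne_zero fun h => by
    rw [hT, mul_assoc, h] at hT0; simp at hT0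
  have ht := Nat.mod_lt W hB
  obtain ⟨s1, s2⟩ := mem_Ico.1 (hσ _ ht)
  obtain ⟨d, hd⟩ := Nat.exists_eq_add_of_le s1
  rw [add_mul, one_mul] at s2
  refine ⟨W % B, ht, (W * w + d) * E, mem_Ico.2 (Cr.win hD (mem_Ico.2 ⟨Nat.le_add_right _ _, by
    rw [add_mul, one_mul]; omega⟩)), ?_⟩
  have : (W * w + d) * E = σ (W % B) * E + T * (W / B) := by
    rw [hd]
    conv_lhs => rw [← Nat.mod_add_div W B]
    conv_rhs => rw [hT]
    ring
  exact Fin.ext (by rw [tm_val, tm_val, this, Nat.add_mul_mod_self_left])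

end Chn

theorem chain : ChainStmt := by
  intro L n T _ _ ex ey p p0 c0 b O E w B q κ Bd P U j A l r3 D hU D3 hp φ γ Γ hL σ hσ N e hW hd
  have hT := D.clock.hT
  have hT0 := NeZero.pos T
  have hD : 0 < w * E := Nat.pos_of_ne_zero fun h => by
    rw [hT, mul_assoc, h] at hT0; simp at hT0
  have hDT : w * E ∣ T := ⟨B, by rw [hT]; ring⟩
  have hmt := D.geom.ok.pos
  have hA : 1 ≤ A := by have := D.geom.hA.1; omega
  have hA' := D.geom.hA.2
  have hκ : 0 ≤ κ := zero_le_one.trans D.clock.hκ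
  have hs : ∀ i < N, (e (i + 1)).2 = (e i).2 ∨ (p (tm T ((e 0).1.val + i)) ≠ 0 ∧
      (e (i + 1)).2 = swap (ex (tm T ((e 0).1.val + i))) (ey (tm T ((e 0).1.val + i))) (e i).2) :=
    fun i hi => by rw [← Chn.time hW hi.le]; exact hW.step i hi
  obtain ⟨i2, -, j2, j3, j4⟩ := radial D.geom.ok D.geom.cov (c := fun i => (e i).2.1) (N := N)
    (fun i hi => D.env.step_le (hs i hi)) (m := P.mt - 1) (by omega) (Nat.zero_le N) le_rfl hd
    (fun y _ l h1 h2 => by omega)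
  have hU1 : (e i2).2.1 ∉ U 1 := not_mem_U hU hmt fun l h1 h2 =>
    (j4 _ (by rw [tdist_self]; omega)).2 l h1 h2
  have hee : ∀ i ≤ N, e i = (tm T ((e 0).1.val + i), (e i).2) := fun i hi =>
    Prod.ext (Chn.time hW hi) rfl
  have hN : ∀ z : Tor 3 L, tdist (e i2).2.1 z ≤ P.η 0 - A →
      Near P U z 1 A ∧ tdist (e 0).2.1 z ≤ 2 * P.η (P.mt - 1) := fun z hz =>
    ⟨fun y hy => ⟨by simp [hU], fun l h1 h2 => (j4 y (by
      have := tdist_triangle (e i2).2.1 z y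
      omega)).2 l h1 h2⟩, by have := (j4 z (by omega)).1; omega⟩
  rcases cross0 D.env hD (c := fun i => (e i).2) hs (r0 := P.η 0 - A) (r := 4 * P.η 0) j2
    (D.geom.leaf _ hU1 _ (by rw [tdist_self]; omega)) (D3.leaf3 _ hU1) (by omega)
    (by have := D3.h1; omega) D3.h2 (Or.inl ⟨N, j2, le_rfl, (Nat.sub_le _ _).trans j3⟩) with
    ⟨i', -, a2, a3, -, a5⟩ | ⟨W, -, -, a3⟩
  · obtain ⟨t, ht, k, hk, htm⟩ := Chn.step hT hσ (((e 0).1.val + i') / (w * E))
    obtain ⟨k1, k2⟩ := mem_Ico.1 hk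
    have hk' := a5 k (mem_Ico.2 ⟨k1, k2.trans_le (Nat.mul_le_mul_right _ (by omega))⟩)
    rw [htm] at hk'
    refine ⟨i', a2.le, t, ht, (e i').2, ⟨fun h => ?_, ?_, (hN _ a3).1⟩, (hN _ a3).2, ?_⟩
    · have := hk' _ h
      rw [tdist_self] at this
      omega
    · unfold Exp
      rw [filter_false_of_mem fun y hy ⟨c, hc⟩ => (hk' _ hc).not_ge (mem_bl.1 hy)]
      simp
    have hlo : ((e 0).1.val + i') / (w * E) * (w * E) ≤ (e 0).1.val + i' := Nat.div_mul_le_self _ _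
    have hhi : (e 0).1.val + i' < (((e 0).1.val + i') / (w * E) + 1) * (w * E) :=
      (Nat.div_lt_iff_lt_mul hD).1 (Nat.lt_succ_self _)
    have hR := fun k hk y hy => hA.trans_lt (a5 k hk y hy)
    rw [← htm]
    conv_lhs => rw [hee i' a2.le]
    rcases le_total k ((e 0).1.val + i') with h | h
    · exact Chn.stat hL D.env D3.pers D.clock.hp0 hp hDT hR k1 h hhi
    · rw [← neg_sq, neg_sub]
      exact Chn.stat hL D.env D3.pers D.clock.hp0 hp hDT hR hlo h k2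
  · obtain ⟨t, ht, k, hk, htm⟩ := Chn.step hT hσ W
    obtain ⟨i', -, b2, b3, b4, b5⟩ := a3 k hk
    have he : e i' = (tm T (σ t * E), (e i').2) := by rw [← htm, ← b3]; exact hee i' b2.le
    refine ⟨i', b2.le, t, ht, (e i').2, ⟨he ▸ hW.out i' b2.le, ?_, (hN _ b4).1⟩, (hN _ b4).2, ?_⟩
    · unfold Exp at b5 ⊢
      rwa [htm] at b5
    · rw [← he, sub_self, zero_pow two_ne_zero]
      refine mul_nonneg (by positivity) (sum_nonneg fun s _ => ?_)
      split_ifs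
      · exact mul_nonneg (mul_nonneg (hp s).1 (sub_nonneg.2 (hp s).2)) (sq_nonneg _)
      · exact le_rfl

end Crest.Agent.N337.ZM
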